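import Vale.Agent.P365.L5.Path
import Vale.Agent.P365.Open.Mom

set_option linter.all false

/-!
# P365, LOC-5: the slope averaged over the sites, in a homogeneous absorption.

`FL A γ ε U = ∑_x E_ε log Im G_xx` (quenched: `U` fixed).
-/

namespace P365L5

open MeasureTheory ProbabilityTheory Complex P365L P365F P365L.Poi
open scoped ENNReal NNReal Real ComplexConjugate

variable {ι : Type*} [Fintype ι] [DecidableEq ι] {A : Matrix ι ι ℝ}

/-- `∑_x E_ε log Im G_xx` in the homogeneous absorption `ε` -/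
noncomputable def FL (A : Matrix ι ι ℝ) (γ : ℝ) (U : ι → ℝ) (ε : ℝ) : ℝ :=
  ∑ x, EEp γ (fun _ => ε) U (fun W => Real.log (mm A W x))

/-- the mass `ε ∑_{y ∉ B x} K_xy`, summed over `x` -/
noncomputable def Far (A : Matrix ι ι ℝ) (γ : ℝ) (U : ι → ℝ) (ε : ℝ) (B : ι → Finset ι) : ℝ :=
  ∑ x, EEp γ (fun _ => ε) U (fun W => ε * Op.KS A W (B x)ᶜ x)

theorem EEp_log_eq (γ : ℝ) (U : ι → ℝ) (ε : ℝ) (x : ι) :
    EEp γ (fun _ => ε) U (fun W => Real.log (mm A W x)) =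
      Phi A U (fun _ => γ - ε) (fun _ => ε) x := rfl

theorem sum_PP_eq (hA : A.IsSymm) {W : ι → ℂ} {ε : ℝ} (hε : 0 < ε) (hW : ∀ x, (W x).im = -ε)
    (B : Finset ι) (x : ι) : ∑ z ∈ B, PP A W x z = 1 - Op.RR A ε Bᶜ x W := by
  have h1 := PP_sum hA (fun x => by rw [hW x]; linarith) (W := W) x
  rw [← Finset.sum_add_sum_compl B] at h1
  have h2 : ∑ z ∈ Bᶜ, PP A W x z = Op.RR A ε Bᶜ x W := by
    unfold Op.RR Op.KS PP
    rw [Finset.mul_sum, Finset.sum_div]
    refine Finset.sum_congr rfl fun y _ => ?_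
    rw [hW, neg_neg]
  rw [← h2]
  linarith

theorem integral_sum_PP (hA : A.IsSymm) {γ ε : ℝ} (hε : 0 < ε) (U : ι → ℝ) (B : Finset ι) (x : ι) :
    ∫ c, (∑ z ∈ B, PP A (Wc U (fun _ => γ - ε) (fun _ => ε) c) x z) ∂(mu ι) =
      1 - EEp γ (fun _ => ε) U (fun W => Op.RR A ε Bᶜ x W) := by
  have h1 : ∀ c, (∑ z ∈ B, PP A (Wc U (fun _ => γ - ε) (fun _ => ε) c) x z) =
      1 - Op.RR A ε Bᶜ x (Wp γ (fun _ => ε) U c) := fun c =>
    sum_PP_eq hA hε (fun x => by exact Wc_im _ _ _ _ _) B x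
  simp_rw [h1]
  have hW : ∀ c, ∀ x, (Wp γ (fun _ => ε) U c x).im = -ε := fun c x => Wp_im _ _ _ _ _
  have hi : Integrable (fun c => Op.RR A ε Bᶜ x (Wp γ (fun _ => ε) U c)) (mu ι) := by
    refine Integrable.of_bound
      ((Op.measurable_RR ε Bᶜ x).comp (measurable_Wp γ (fun _ => ε) U)).aestronglyMeasurable 1
      (Filter.Eventually.of_forall fun c => ?_)
    have hneg : ∀ x, (Wp γ (fun _ => ε) U c x).im < 0 := fun x => by rw [hW]; linarith
    rw [Real.norm_of_nonneg (Op.RR_nonneg hA hε.le hneg _ _)]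
    exact Op.RR_le_one hA hneg (fun a _ => by rw [hW, neg_neg]) x
  rw [integral_sub (integrable_const _) hi]
  simp only [integral_const, probReal_univ, smul_eq_mul, one_mul]
  rfl

/-- **averaged slope**: `B x` any sets of at most `n` sites -/
theorem FL_slope (hA : A.IsSymm) {γ ε ε' : ℝ} (U : ι → ℝ) (h0 : 0 < ε') (h1 : ε' < ε)
    (h2 : ε < γ) (B : ι → Finset ι) {n : ℝ} (hn : ∀ x, ((B x).card : ℝ) ≤ n) :
    FL A γ U ε' ≤ FL A γ U ε - (ε - ε') / ε *
      (Fintype.card ι - ∑ x, EEp γ (fun _ => ε) U (fun W => Op.RR A ε (B x)ᶜ x W)) +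
      Fintype.card ι * (2 * (ε - ε') * Real.sqrt (n / (ε' * (γ - ε)))) := by
  have hε : 0 < ε := h0.trans h1
  have key : ∀ x, EEp γ (fun _ => ε') U (fun W => Real.log (mm A W x)) ≤
      EEp γ (fun _ => ε) U (fun W => Real.log (mm A W x)) - (ε - ε') / ε *
        (1 - EEp γ (fun _ => ε) U (fun W => Op.RR A ε (B x)ᶜ x W)) +
        2 * (ε - ε') * Real.sqrt (n / (ε' * (γ - ε))) := by
    intro x
    have h := slope hA U h0 h1 h2 (B x) x
    rw [integral_sum_PP hA hε] at h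
    rw [EEp_log_eq, EEp_log_eq]
    refine h.trans (add_le_add_right ?_ _)
    refine mul_le_mul_of_nonneg_left (Real.sqrt_le_sqrt ?_) (by linarith)
    exact div_le_div_of_nonneg_right (hn x) (mul_pos h0 (by linarith)).le
  unfold FL
  refine (Finset.sum_le_sum fun x _ => key x).trans (le_of_eq ?_)
  rw [Finset.sum_add_distrib, Finset.sum_sub_distrib, ← Finset.mul_sum, Finset.sum_sub_distrib]
  simp only [Finset.sum_const, Finset.card_univ, nsmul_eq_mul, mul_one]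

/-- `∑_x E P_x(far)` from `∑_x E m_x P_x(far)` -/
theorem sum_RR_le (hA : A.IsSymm) {γ ε : ℝ} (hγ : 0 < γ) (hε : 0 < ε) (h2 : ε ≤ γ) {B0 d : ℝ}
    (U : ι → ℝ) (hU : ∀ x, |U x| ≤ B0) (hd : ∀ x, ∑ y, A x y ^ 2 ≤ d) (B : ι → Finset ι)
    (hB : ∀ x, x ∈ B x) {X : ℝ} (hX : 0 < X) :
    ∑ x, EEp γ (fun _ => ε) U (fun W => Op.RR A ε (B x)ᶜ x W) ≤
      X ^ 2 / γ * Far A γ U ε B +
        Fintype.card ι * (2 * ((2 * (d + (B0 ^ 2 + γ ^ 2)) / γ) / X)) := by
  have key : ∀ x, EEp γ (fun _ => ε) U (fun W => Op.RR A ε (B x)ᶜ x W) ≤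
      X ^ 2 / γ * EEp γ (fun _ => ε) U (fun W => ε * Op.KS A W (B x)ᶜ x) +
        2 * ((2 * (d + (B0 ^ 2 + γ ^ 2)) / γ) / X) := by
    intro x
    refine Op.prob_bound_weight hA hγ U (fun _ => hε) (fun _ => h2) hε.le (fun _ _ => le_rfl)
      (by rw [Finset.mem_compl, not_not]; exact hB x) hX ?_
    refine (Op.Gr_self_lower hA hγ (fun y => (Op.W0_im γ U y).le) x (hd x)).trans ?_
    refine mul_le_mul_of_nonneg_right ?_ (norm_nonneg _)
    refine div_le_div_of_nonneg_right ?_ hγ.le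
    refine mul_le_mul_of_nonneg_left (add_le_add_right ?_ _) two_pos.le
    rw [Complex.sq_norm, normSq_apply, Op.W0_im]
    have h3 : (Op.W0 γ U x).re = U x := by unfold Op.W0; simp
    rw [h3]
    have h4 : U x ^ 2 ≤ B0 ^ 2 := by
      rw [← sq_abs (U x)]
      exact pow_le_pow_left₀ (abs_nonneg _) (hU x) 2
    nlinarith
  unfold Far
  refine (Finset.sum_le_sum fun x _ => key x).trans (le_of_eq ?_)
  rw [Finset.sum_add_distrib, ← Finset.mul_sum]
  simp only [Finset.sum_const, Finset.card_univ, nsmul_eq_mul]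

end P365L5
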