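import Vale.Agent.P365.Bdl.B1

set_option linter.all false

/-!
# P365, LOC-5: one variable averages over the Cauchy law.
-/

namespace P365L5

open MeasureTheory ProbabilityTheory Complex P365L
open scoped ENNReal NNReal Real ComplexConjugate

/-- the mean of the Cauchy kernel -/
theorem integral_inv_sub {q : ℂ} (hq : 0 < q.im) :
    Integrable (fun t : ℝ => ((t : ℂ) - q)⁻¹) nu ∧ ∫ t : ℝ, ((t : ℂ) - q)⁻¹ ∂nu = (-I - q)⁻¹ := by
  have hint : Integrable (fun t : ℝ => ((t : ℂ) - q)⁻¹) nu := by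
    refine Integrable.of_bound (C := 1 / q.im)
      (by fun_prop : Measurable fun t : ℝ => ((t : ℂ) - q)⁻¹).aestronglyMeasurable
      (Filter.Eventually.of_forall fun t => ?_)
    rw [norm_inv, one_div]
    exact inv_anti₀ hq (cau_im_le hq t)
  refine ⟨hint, ?_⟩
  have hI : 0 < I.im := by simp
  have hne : -I - q ≠ 0 := by
    intro h
    have := congrArg Complex.im h
    simp at this
    linarith
  have hne' : I + q ≠ 0 := by
    intro h
    apply hne
    linear_combination -h
  have h1 : ∫ t : ℝ, (((t : ℂ) - q)⁻¹ - (-I - q)⁻¹) ∂nu = 0 := by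
    rw [cau_integral]
    have h2 : ∀ t : ℝ, ((π⁻¹ * (t ^ 2 + 1)⁻¹ : ℝ) : ℂ) * (((t : ℂ) - q)⁻¹ - (-I - q)⁻¹) =
        (π * (I + q))⁻¹ * (((t : ℂ) - I) * ((t : ℂ) - q))⁻¹ := by
      intro t
      have h3 := cau_sub_ne hq t
      have h4 := cau_sub_ne hI t
      have h5 : (t : ℂ) + I ≠ 0 := by
        intro h
        have := congrArg Complex.im h
        simp at this
      have h6 : ((t : ℂ) ^ 2 + 1) = ((t : ℂ) - I) * ((t : ℂ) + I) := by
        have := Complex.I_sq
        linear_combination this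
      have h7 : (π : ℂ) ≠ 0 := Complex.ofReal_ne_zero.2 Real.pi_ne_zero
      push_cast
      rw [h6]
      field_simp
      ring
    simp only [h2]
    rw [integral_const_mul, cau_integral_mul hq hI, mul_zero]
  rw [integral_sub hint (integrable_const _), integral_const, probReal_univ, one_smul] at h1
  exact sub_eq_zero.1 h1

/-- the unimodular function -/
noncomputable def uu (p : ℂ) (t : ℝ) : ℂ := ((t : ℂ) - conj p) / ((t : ℂ) - p)

/-- its value at `-i` -/
noncomputable def u0 (p : ℂ) : ℂ := (-I - conj p) / (-I - p)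

theorem mI_sub_ne {p : ℂ} (hp : 0 < p.im) : -I - p ≠ 0 := by
  intro h
  have := congrArg Complex.im h
  simp at this
  linarith

theorem norm_uu {p : ℂ} (hp : 0 < p.im) (t : ℝ) : ‖uu p t‖ = 1 := by
  have h1 : ‖(t : ℂ) - conj p‖ = ‖(t : ℂ) - p‖ := by
    rw [← Complex.norm_conj ((t : ℂ) - p), map_sub, Complex.conj_ofReal]
  rw [uu, norm_div, h1, div_self (norm_pos_iff.2 (cau_sub_ne hp t)).ne']

theorem measurable_uu (p : ℂ) : Measurable (uu p) := by
  unfold uu
  fun_prop

theorem one_sub_u0 {p : ℂ} (hp : 0 < p.im) :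
    1 - ‖u0 p‖ ^ 2 = 4 * p.im / ‖-I - p‖ ^ 2 := by
  have h0 : 0 < ‖-I - p‖ := norm_pos_iff.2 (mI_sub_ne hp)
  rw [u0, norm_div, div_pow, eq_div_iff (by positivity), sub_mul, one_mul,
    div_mul_cancel₀ _ (by positivity), Complex.sq_norm, Complex.sq_norm, normSq_apply, normSq_apply]
  simp
  ring

theorem norm_u0_le {p : ℂ} (hp : 0 < p.im) : ‖u0 p‖ ≤ 1 := by
  have h := one_sub_u0 hp
  have h0 : 0 < ‖-I - p‖ := norm_pos_iff.2 (mI_sub_ne hp)
  have h1 : 0 ≤ 4 * p.im / ‖-I - p‖ ^ 2 := by positivity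
  nlinarith [norm_nonneg (u0 p)]

theorem one_add_ne_zero {c : ℂ} (hc : ‖c‖ < 1) : 1 + c ≠ 0 := by
  intro h
  have h1 : c = -1 := by linear_combination h
  rw [h1, norm_neg, norm_one] at hc
  exact lt_irrefl _ hc

theorem integral_uu {p τ : ℂ} (hp : 0 < p.im) (hτ : ‖τ‖ < 1) :
    ∫ t, (τ * uu p t) / (1 + τ * uu p t) ∂nu = (τ * u0 p) / (1 + τ * u0 p) := by
  have h1τ := one_add_ne_zero hτ
  obtain ⟨q, hq⟩ : ∃ q : ℂ, q = (p + τ * conj p) / (1 + τ) := ⟨_, rfl⟩
  have hqe : (1 + τ) * q = p + τ * conj p := by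
    rw [hq]
    field_simp
  have hqim : 0 < q.im := by
    have h2 : (q * (normSq (1 + τ) : ℂ)) = (p + τ * conj p) * conj (1 + τ) := by
      rw [← hqe, ← Complex.mul_conj]
      ring
    have h3 := congrArg Complex.im h2
    rw [Complex.im_mul_ofReal] at h3
    have h4 : ((p + τ * conj p) * conj (1 + τ)).im = p.im * (1 - ‖τ‖ ^ 2) := by
      rw [Complex.sq_norm, normSq_apply]
      simp
      ring
    rw [h4] at h3
    have h5 : 0 < p.im * (1 - ‖τ‖ ^ 2) := by
      refine mul_pos hp ?_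
      nlinarith [norm_nonneg τ]
    rw [← h3] at h5
    exact pos_of_mul_pos_left h5 (normSq_nonneg _)
  have h2 : ∀ t : ℝ, (τ * uu p t) / (1 + τ * uu p t) =
      (τ / (1 + τ)) * (1 + (q - conj p) * ((t : ℂ) - q)⁻¹) := by
    intro t
    have h3 := cau_sub_ne hp t
    have h4 := cau_sub_ne hqim t
    have h5 : 1 + τ * uu p t ≠ 0 := by
      apply one_add_ne_zero
      rw [norm_mul, norm_uu hp, mul_one]
      exact hτ
    have h6 : 1 + τ * uu p t = (1 + τ) * ((t : ℂ) - q) / ((t : ℂ) - p) := by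
      rw [uu, eq_div_iff h3]
      field_simp
      linear_combination hqe
    rw [h6, uu]
    field_simp
    ring
  have hne1 := mI_sub_ne hp
  have hne2 := mI_sub_ne hqim
  simp only [h2]
  obtain ⟨hi, hv⟩ := integral_inv_sub hqim
  rw [integral_const_mul, integral_add (integrable_const _) (hi.const_mul _), integral_const_mul,
    hv, integral_const, probReal_univ, one_smul]
  have h7 : 1 + τ * u0 p = (1 + τ) * (-I - q) / (-I - p) := by
    rw [u0, eq_div_iff hne1]
    field_simp
    linear_combination hqe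
  rw [h7, u0]
  field_simp
  ring

/-- `∫₀¹ Re (c/(1+sc)) ds = log |1+c|` -/
theorem integral_log_seg {c : ℂ} (hc : ‖c‖ < 1) :
    ∫ s in (0 : ℝ)..1, (c / (1 + s * c)).re = Real.log ‖1 + c‖ := by
  have hpos : ∀ s : ℝ, s ∈ Set.Icc (0 : ℝ) 1 → 0 < normSq (1 + s * c) := by
    intro s hs
    refine normSq_pos.2 (one_add_ne_zero ?_)
    rw [norm_mul, Complex.norm_real, Real.norm_of_nonneg hs.1]
    nlinarith [norm_nonneg c, hs.2]
  have hN : ∀ s : ℝ, normSq (1 + s * c) = 1 + 2 * s * c.re + s ^ 2 * (c.re ^ 2 + c.im ^ 2) := by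
    intro s
    rw [normSq_apply]
    simp
    ring
  have hder : ∀ s ∈ Set.uIcc (0 : ℝ) 1, HasDerivAt
      (fun s : ℝ => (1 / 2) * Real.log (normSq (1 + s * c))) ((c / (1 + s * c)).re) s := by
    intro s hs
    rw [Set.uIcc_of_le zero_le_one] at hs
    have h1 := hpos s hs
    have h2 : HasDerivAt (fun s : ℝ => normSq (1 + s * c))
        (2 * c.re + 2 * s * (c.re ^ 2 + c.im ^ 2)) s := by
      simp only [hN]
      have h3 : HasDerivAt (fun s : ℝ => 1 + 2 * s * c.re + s ^ 2 * (c.re ^ 2 + c.im ^ 2))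
          (0 + 2 * 1 * c.re + (2 * s ^ (2 - 1) * 1) * (c.re ^ 2 + c.im ^ 2)) s := by
        refine ((hasDerivAt_const s (1 : ℝ)).add
          (((hasDerivAt_id s).const_mul 2).mul_const c.re)).add
          (((hasDerivAt_id s).pow 2).mul_const _)
      refine h3.congr_deriv ?_
      norm_num
    refine ((h2.log h1.ne').const_mul (1 / 2)).congr_deriv ?_
    rw [Complex.div_re]
    simp only [add_re, one_re, mul_re, ofReal_re, ofReal_im, zero_mul, sub_zero, add_im, one_im,
      mul_im, add_zero, zero_add]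
    field_simp
    ring
  have hcont : ContinuousOn (fun s : ℝ => (c / (1 + s * c)).re) (Set.uIcc (0 : ℝ) 1) := by
    rw [Set.uIcc_of_le zero_le_one]
    refine Complex.continuous_re.comp_continuousOn (ContinuousOn.div (by fun_prop) (by fun_prop) ?_)
    intro s hs
    exact normSq_pos.1 (hpos s hs)
  rw [intervalIntegral.integral_eq_sub_of_hasDerivAt hder
    (hcont.intervalIntegrable)]
  simp only [ofReal_one, one_mul, ofReal_zero, zero_mul, add_zero, map_one, Real.log_one, mul_zero,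
    sub_zero]
  rw [normSq_eq_norm_sq, Real.log_pow]
  push_cast
  ring

/-- the logarithmic average -/
theorem integral_log_uu {p τ : ℂ} (hp : 0 < p.im) (hτ : ‖τ‖ < 1) :
    ∫ t, Real.log ‖1 + τ * uu p t‖ ∂nu = Real.log ‖1 + τ * u0 p‖ := by
  have hτ0 : ‖τ * u0 p‖ < 1 := by
    rw [norm_mul]
    nlinarith [norm_nonneg τ, norm_nonneg (u0 p), norm_u0_le hp]
  have hτt : ∀ t, ‖τ * uu p t‖ < 1 := by
    intro t
    rw [norm_mul, norm_uu hp, mul_one]
    exact hτ
  have h1 : ∀ t, Real.log ‖1 + τ * uu p t‖ =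
      ∫ s in (0 : ℝ)..1, ((τ * uu p t) / (1 + s * (τ * uu p t))).re := fun t =>
    (integral_log_seg (hτt t)).symm
  rw [← integral_log_seg hτ0]
  simp only [h1, intervalIntegral.integral_of_le zero_le_one]
  have hb : ∀ (s : ℝ) (t : ℝ), s ∈ Set.Ioc (0 : ℝ) 1 →
      ‖((τ * uu p t) / (1 + s * (τ * uu p t))).re‖ ≤ 1 / (1 - ‖τ‖) := by
    intro s t hs
    have h2 : 1 - ‖τ‖ ≤ ‖1 + s * (τ * uu p t)‖ := by
      have h3 : ‖(s : ℂ) * (τ * uu p t)‖ ≤ ‖τ‖ := by
        rw [norm_mul, norm_mul, norm_uu hp, mul_one, Complex.norm_real, Real.norm_of_nonneg hs.1.le]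
        nlinarith [norm_nonneg τ, hs.2]
      have h4 : ‖(1 : ℂ)‖ ≤ ‖1 + s * (τ * uu p t)‖ + ‖(s : ℂ) * (τ * uu p t)‖ := by
        have := norm_sub_le (1 + s * (τ * uu p t)) ((s : ℂ) * (τ * uu p t))
        rwa [add_sub_cancel_right] at this
      rw [norm_one] at h4
      linarith
    have h5 : 0 < 1 - ‖τ‖ := by linarith
    refine (Complex.abs_re_le_norm _).trans ?_
    rw [norm_div]
    refine div_le_div₀ zero_le_one (hτt t).le h5 h2
  have hmeas : Measurable (Function.uncurry fun (t : ℝ) (s : ℝ) =>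
      ((τ * uu p t) / (1 + s * (τ * uu p t))).re) := by
    have := measurable_uu p
    unfold Function.uncurry
    fun_prop
  rw [integral_integral_swap]
  · refine setIntegral_congr_fun measurableSet_Ioc fun s hs => ?_
    have hsτ : ‖(s : ℂ) * τ‖ < 1 := by
      rw [norm_mul, Complex.norm_real, Real.norm_of_nonneg hs.1.le]
      nlinarith [norm_nonneg τ, hs.2]
    have h6 := integral_uu hp hsτ
    have hs0 : (s : ℂ) ≠ 0 := Complex.ofReal_ne_zero.2 hs.1.ne'
    have h7 : ∫ t, (τ * uu p t) / (1 + s * (τ * uu p t)) ∂nu =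
        (τ * u0 p) / (1 + s * (τ * u0 p)) := by
      have h8 : ∀ t, (τ * uu p t) / (1 + s * (τ * uu p t)) =
          (s : ℂ)⁻¹ * ((s * τ * uu p t) / (1 + s * τ * uu p t)) := by
        intro t
        rw [mul_assoc]
        field_simp
      simp only [h8]
      rw [integral_const_mul, h6, mul_assoc]
      field_simp
    have h9 : Integrable (fun t => (τ * uu p t) / (1 + s * (τ * uu p t))) nu := by
      refine Integrable.of_bound (C := 1 / (1 - ‖τ‖)) ?_ (Filter.Eventually.of_forall fun t => ?_)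
      · have := measurable_uu p
        exact (by fun_prop : Measurable fun t => (τ * uu p t) / (1 + s * (τ * uu p t))).aestronglyMeasurable
      · have h2 : 1 - ‖τ‖ ≤ ‖1 + s * (τ * uu p t)‖ := by
          have h3 : ‖(s : ℂ) * (τ * uu p t)‖ ≤ ‖τ‖ := by
            rw [norm_mul, norm_mul, norm_uu hp, mul_one, Complex.norm_real,
              Real.norm_of_nonneg hs.1.le]
            nlinarith [norm_nonneg τ, hs.2]
          have h4 : ‖(1 : ℂ)‖ ≤ ‖1 + s * (τ * uu p t)‖ + ‖(s : ℂ) * (τ * uu p t)‖ := by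
            have := norm_sub_le (1 + s * (τ * uu p t)) ((s : ℂ) * (τ * uu p t))
            rwa [add_sub_cancel_right] at this
          rw [norm_one] at h4
          linarith
        have h5 : 0 < 1 - ‖τ‖ := by linarith
        rw [norm_div]
        exact div_le_div₀ zero_le_one (hτt t).le h5 h2
    have h10 : ∫ t, ((τ * uu p t) / (1 + s * (τ * uu p t))).re ∂nu =
        (∫ t, (τ * uu p t) / (1 + s * (τ * uu p t)) ∂nu).re := integral_re h9
    rw [h10, h7]
  · refine Integrable.of_bound (C := 1 / (1 - ‖τ‖)) hmeas.aestronglyMeasurable ?_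
    refine (Measure.ae_prod_iff_ae_ae ?_).2 ?_
    · exact measurableSet_le (hmeas.norm) measurable_const
    · refine Filter.Eventually.of_forall fun t => ?_
      refine (ae_restrict_iff' measurableSet_Ioc).2 (Filter.Eventually.of_forall fun s hs => ?_)
      exact hb s t hs

end P365L5
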