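import Vale.Agent.P365.L5.Avg
import Vale.Agent.P365.Torus.Char
import Vale.Agent.P365.Open.Chain

set_option linter.all false

/-!
# P365, LOC-5: near and far mass on the torus, and the slope at one absorption.
-/

namespace P365L5

open MeasureTheory ProbabilityTheory Complex P365L P365F P365L.Poi P365O
open scoped ENNReal NNReal Real ComplexConjugate

section misc
variable {ι : Type*} [Fintype ι] [DecidableEq ι] {A : Matrix ι ι ℝ}

theorem EEp_RR_le_one (hA : A.IsSymm) {γ ε : ℝ} (hε : 0 < ε) (U : ι → ℝ) (S : Finset ι) (x : ι) :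
    EEp γ (fun _ => ε) U (fun W => Op.RR A ε S x W) ≤ 1 := by
  have h := EEp_le (γ := γ) (U := U) (fun _ => hε) (Op.adm_RR hA hε.le S x) (Adm_const 1)
    (fun W hW => Op.RR_le_one hA (fun x => by rw [hW x]; linarith) (fun a _ => by
      rw [hW, neg_neg]) x)
  rwa [EEp_const] at h

end misc

variable {N : ℕ} [NeZero N]

/-- ball around `x` of real radius `r`, sup norm -/
noncomputable def Bx (N : ℕ) [NeZero N] (r : ℝ) (x : Tor N) : Finset (Tor N) :=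
  Finset.univ.filter fun y => (nrm (x - y) : ℝ) ≤ r

theorem mem_Bx {r : ℝ} {x y : Tor N} : y ∈ Bx N r x ↔ (nrm (x - y) : ℝ) ≤ r := by
  simp [Bx]

theorem self_mem_Bx {r : ℝ} (hr : 0 ≤ r) (x : Tor N) : x ∈ Bx N r x := by
  rw [mem_Bx, sub_self, nrm_zero]
  exact_mod_cast hr

theorem card_Bx_le {r : ℝ} (hr : 0 ≤ r) (x : Tor N) : ((Bx N r x).card : ℝ) ≤ (2 * r + 1) ^ 2 := by
  have h1 : (Bx N r x).card ≤ (ball N ⌊r⌋₊).card := by
    refine Finset.card_le_card_of_injOn (fun y => x - y) (fun y hy => ?_) (fun y _ z _ h => ?_)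
    · have hy' : (nrm (x - y) : ℝ) ≤ r := mem_Bx.1 (Finset.mem_coe.1 hy)
      rw [Finset.mem_coe, mem_ball]
      exact Nat.le_floor hy'
    · exact sub_right_injective h
  have h2 : ((Bx N r x).card : ℝ) ≤ (2 * (⌊r⌋₊ : ℝ) + 1) ^ 2 := by
    have := h1.trans (card_ball_le (N := N) ⌊r⌋₊)
    exact_mod_cast this
  refine h2.trans (pow_le_pow_left₀ (by positivity) ?_ 2)
  have := Nat.floor_le hr
  linarith

/-- near energy: `∑_x E ∑_{|x-y| ≤ r} ε² K_xy |x-y|²` -/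
noncomputable def Near (N : ℕ) [NeZero N] (γ : ℝ) (U : Tor N → ℝ) (ε r : ℝ) : ℝ :=
  ∑ x, EEp γ (fun _ => ε) U
    (fun W => ∑ y ∈ Bx N r x, ε ^ 2 * KK (AT N) W x y * (nrm (x - y) : ℝ) ^ 2)

/-- far mass: `∑_x E ∑_{|x-y| > r} ε K_xy` -/
theorem Far_le {γ ε a R : ℝ} (hε : 0 < ε) (ha : 0 < a) (U : Tor N → ℝ) :
    Far (AT N) γ U ε (Bx N (a / √ε)) ≤
      1 / a ^ 2 * Near N γ U ε (R / √ε) + Far (AT N) γ U ε (Bx N (R / √ε)) := by
  have hs : 0 < √ε := Real.sqrt_pos.2 hε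
  have hA := AT_symm N
  unfold Far Near
  rw [Finset.mul_sum, ← Finset.sum_add_distrib]
  refine Finset.sum_le_sum fun x _ => ?_
  have hadm1 : Adm (fun W : Tor N → ℂ => ε * Op.KS (AT N) W (Bx N (a / √ε) x)ᶜ x) :=
    adm_cmul (Op.adm_KS hA _ _) ε
  have hadm2 : Adm (fun W : Tor N → ℂ => ε * Op.KS (AT N) W (Bx N (R / √ε) x)ᶜ x) :=
    adm_cmul (Op.adm_KS hA _ _) ε
  have hadm3 : Adm (fun W : Tor N → ℂ =>
      ∑ y ∈ Bx N (R / √ε) x, ε ^ 2 * KK (AT N) W x y * (nrm (x - y) : ℝ) ^ 2) :=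
    Adm_sum _ fun y _ => adm_mul (adm_cmul (Adm_KK hA x y) _) (Adm_const _)
  rw [← EEp_mul, ← EEp_add (fun _ => hε) (adm_cmul hadm3 _) hadm2]
  refine EEp_le (fun _ => hε) hadm1 (adm_add (adm_cmul hadm3 _) hadm2) fun W hW => ?_
  unfold Op.KS
  rw [Finset.mul_sum, Finset.mul_sum, Finset.mul_sum]
  have hsub : (Bx N (a / √ε) x)ᶜ ⊆
      (Bx N (R / √ε) x \ Bx N (a / √ε) x) ∪ (Bx N (R / √ε) x)ᶜ := by
    intro y hy
    rw [Finset.mem_union, Finset.mem_sdiff, Finset.mem_compl]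
    rw [Finset.mem_compl] at hy
    by_cases h : y ∈ Bx N (R / √ε) x
    · exact Or.inl ⟨h, hy⟩
    · exact Or.inr h
  refine (Finset.sum_le_sum_of_subset_of_nonneg hsub fun y _ _ =>
    mul_nonneg hε.le (KK_nonneg _ _)).trans ?_
  have hdisj : Disjoint (Bx N (R / √ε) x \ Bx N (a / √ε) x) (Bx N (R / √ε) x)ᶜ := by
    rw [Finset.disjoint_left]
    intro y hy hy'
    exact (Finset.mem_compl.1 hy') (Finset.mem_sdiff.1 hy).1
  rw [Finset.sum_union hdisj]
  refine add_le_add ?_ le_rfl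
  refine le_trans (Finset.sum_le_sum (g := fun y => 1 / a ^ 2 *
    (ε ^ 2 * KK (AT N) W x y * (nrm (x - y) : ℝ) ^ 2)) fun y hy => ?_)
    (Finset.sum_le_sum_of_subset_of_nonneg Finset.sdiff_subset fun y _ _ => ?_)
  · have hy' : a / √ε < (nrm (x - y) : ℝ) := by
      by_contra h
      exact (Finset.mem_sdiff.1 hy).2 (mem_Bx.2 (not_lt.1 h))
    have h1 : a ^ 2 / ε ≤ (nrm (x - y) : ℝ) ^ 2 := by
      have h2 := pow_le_pow_left₀ (div_nonneg ha.le hs.le) hy'.le 2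
      rwa [div_pow, Real.sq_sqrt hε.le] at h2
    have h3 : 1 ≤ 1 / a ^ 2 * (ε * (nrm (x - y) : ℝ) ^ 2) := by
      rw [div_le_iff₀ hε] at h1
      rw [one_div, inv_mul_eq_div, le_div_iff₀ (by positivity), one_mul]
      linarith
    have h4 : 0 ≤ ε * KK (AT N) W x y := mul_nonneg hε.le (KK_nonneg _ _)
    calc ε * KK (AT N) W x y = ε * KK (AT N) W x y * 1 := (mul_one _).symm
      _ ≤ ε * KK (AT N) W x y * (1 / a ^ 2 * (ε * (nrm (x - y) : ℝ) ^ 2)) :=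
          mul_le_mul_of_nonneg_left h3 h4
      _ = _ := by ring
  · have := KK_nonneg (A := AT N) (W := W) x y
    positivity

/-- `1 - N⁻² ∑_x E P_x(B_xᶜ) - err` -/
noncomputable def gf (N : ℕ) [NeZero N] (γ : ℝ) (U : Tor N → ℝ) (a err ε : ℝ) : ℝ :=
  1 - (∑ x, EEp γ (fun _ => ε) U
    (fun W => Op.RR (AT N) ε (Bx N (a / √ε) x)ᶜ x W)) / (N : ℝ) ^ 2 - err

theorem row_sq_le (x : Tor N) : ∑ y, AT N x y ^ 2 ≤ 4 := by
  simp only [AT_sq]
  exact row_sum_le x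

theorem N_sq_pos : (0 : ℝ) < (N : ℝ) ^ 2 := by
  have : (0 : ℝ) < N := by exact_mod_cast NeZero.pos N
  positivity

theorem gf_lower {γ ε a err : ℝ} (hε : 0 < ε) (U : Tor N → ℝ) : -err ≤ gf N γ U a err ε := by
  unfold gf
  have h1 : (∑ x, EEp γ (fun _ => ε) U
      (fun W => Op.RR (AT N) ε (Bx N (a / √ε) x)ᶜ x W)) / (N : ℝ) ^ 2 ≤ 1 := by
    rw [div_le_one N_sq_pos]
    refine (Finset.sum_le_sum fun x _ => EEp_RR_le_one (AT_symm N) hε U _ x).trans ?_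
    simp only [Finset.sum_const, Finset.card_univ, nsmul_eq_mul, mul_one]
    rw [card_Tor]
  linarith

/-- the slope inequality with `err = 2 a √(54/γ)` -/
theorem gf_step {γ ε a h : ℝ} (hγ : 0 < γ) (hε : 0 < ε) (h2 : ε ≤ γ / 2) (ha : 0 < a)
    (hεa : ε ≤ a ^ 2) (hh : 0 < h) (hh1 : h ≤ 1 / 2) (U : Tor N → ℝ) :
    FL (AT N) γ U (ε * Real.exp (-h)) / (N : ℝ) ^ 2 ≤ FL (AT N) γ U ε / (N : ℝ) ^ 2 -
      (1 - Real.exp (-h)) * gf N γ U a (2 * a * √(54 / γ)) ε := by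
  have hs : 0 < √ε := Real.sqrt_pos.2 hε
  have he1 : Real.exp (-h) < 1 := by rw [← Real.exp_zero]; exact Real.exp_lt_exp.2 (by linarith)
  have he0 : 0 < Real.exp (-h) := Real.exp_pos _
  have hsl : √ε ≤ a := by
    rw [← Real.sqrt_sq ha.le]
    exact Real.sqrt_le_sqrt hεa
  have hone : 1 ≤ a / √ε := (one_le_div hs).2 hsl
  have hn : ∀ x, ((Bx N (a / √ε) x).card : ℝ) ≤ 9 * a ^ 2 / ε := by
    intro x
    refine (card_Bx_le (div_nonneg ha.le hs.le) x).trans ?_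
    have h3 : (2 * (a / √ε) + 1) ^ 2 ≤ (3 * (a / √ε)) ^ 2 :=
      pow_le_pow_left₀ (by positivity) (by linarith) 2
    refine h3.trans (le_of_eq ?_)
    rw [mul_pow, div_pow, Real.sq_sqrt hε.le]
    ring
  have hslope := FL_slope (AT_symm N) U (mul_pos hε he0) (by nlinarith) (by linarith : ε < γ)
    (Bx N (a / √ε)) hn
  have hN := N_sq_pos (N := N)
  rw [card_Tor] at hslope
  have hsq : √(9 * a ^ 2 / ε / (ε * Real.exp (-h) * (γ - ε))) ≤ a * √(54 / γ) / ε := by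
    have h3 : 9 * a ^ 2 / ε / (ε * Real.exp (-h) * (γ - ε)) ≤ (a / ε) ^ 2 * (54 / γ) := by
      have h4 : γ / 6 ≤ Real.exp (-h) * (γ - ε) := by
        have h5 : (1 : ℝ) / 3 ≤ Real.exp (-h) := by
          have h6 := Real.add_one_le_exp (-h)
          linarith
        have h10 : γ / 2 ≤ γ - ε := by linarith
        nlinarith
      have hge : 0 < γ - ε := by linarith
      rw [div_div, div_le_iff₀ (by positivity)]
      have h11 : (a / ε) ^ 2 * (54 / γ) * (ε * (ε * Real.exp (-h) * (γ - ε))) =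
          a ^ 2 * (54 / γ) * (Real.exp (-h) * (γ - ε)) := by
        field_simp
      rw [h11]
      have h12 : a ^ 2 * (54 / γ) * (γ / 6) = 9 * a ^ 2 := by
        field_simp
        norm_num
      calc 9 * a ^ 2 = a ^ 2 * (54 / γ) * (γ / 6) := h12.symm
        _ ≤ _ := mul_le_mul_of_nonneg_left h4 (by positivity)
    refine (Real.sqrt_le_sqrt h3).trans (le_of_eq ?_)
    rw [Real.sqrt_mul (by positivity), Real.sqrt_sq (by positivity)]
    ring
  have hfin : FL (AT N) γ U (ε * Real.exp (-h)) ≤ FL (AT N) γ U ε - (1 - Real.exp (-h)) *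
      ((N : ℝ) ^ 2 - ∑ x, EEp γ (fun _ => ε) U
        (fun W => Op.RR (AT N) ε (Bx N (a / √ε) x)ᶜ x W)) +
      (N : ℝ) ^ 2 * ((1 - Real.exp (-h)) * (2 * a * √(54 / γ))) := by
    refine hslope.trans ?_
    have h3 : (ε - ε * Real.exp (-h)) / ε = 1 - Real.exp (-h) := by
      field_simp
    rw [h3]
    refine add_le_add_right (mul_le_mul_of_nonneg_left ?_ hN.le) _
    calc 2 * (ε - ε * Real.exp (-h)) * √(9 * a ^ 2 / ε / (ε * Real.exp (-h) * (γ - ε))) ≤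
        2 * (ε - ε * Real.exp (-h)) * (a * √(54 / γ) / ε) :=
          mul_le_mul_of_nonneg_left hsq (by nlinarith)
      _ = _ := by
          field_simp
  unfold gf
  generalize (∑ x, EEp γ (fun _ => ε) U
        (fun W => Op.RR (AT N) ε (Bx N (a / √ε) x)ᶜ x W)) = S at hfin ⊢
  generalize 2 * a * √(54 / γ) = er at hfin ⊢
  generalize FL (AT N) γ U (ε * Real.exp (-h)) = F1 at hfin ⊢
  generalize FL (AT N) γ U ε = F0 at hfin ⊢
  generalize (N : ℝ) ^ 2 = n2 at hN hfin ⊢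
  rw [div_le_iff₀ hN]
  refine hfin.trans (le_of_eq ?_)
  field_simp
  ring

end P365L5
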