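import Vale.Agent.P365.L5.Core
import Vale.Agent.P365.L4.Mass
import Vale.Agent.P365.L4.Slope
import Vale.Agent.P365.Stat.StaticDef

set_option linter.all false

/-!
# P365, LOC-5: `E log Im G_xx ≤ -(1-δ) log(1/b) + C` on the torus, from the static theorem.
-/

namespace P365L5

open MeasureTheory ProbabilityTheory Complex P365L P365F P365L.Poi P365O
open scoped ENNReal NNReal Real ComplexConjugate

variable {N : ℕ} [NeZero N]

/-! ### far mass -/

/-- the averaged kernel `ε² E K_xy` satisfies the energy bound -/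
theorem kernel_energy {γ ε : ℝ} (hγ : 0 < γ) (hε : 0 < ε) (hεγ : ε ≤ γ) (U f : Tor N → ℝ) :
    ∑ x, ∑ y, (ε ^ 2 * EEp γ (fun _ => ε) U (fun W => KK (AT N) W x y)) * (f x - f y) ^ 2 ≤
      1 / γ ^ 2 * ∑ x, ∑ y, AT N x y * (f x - f y) ^ 2 := by
  have hA := AT_symm N
  have h := energy_le hA hγ U (fun _ => hε) (fun _ => hεγ) f
  simp only [AT_sq] at h
  refine le_trans (le_of_eq ?_) h
  have h1 : EEp γ (fun _ => ε) U (fun W => En (AT N) W f) =
      EEp γ (fun _ => ε) U (fun W => ∑ x, ∑ y, (ε ^ 2 * (f x - f y) ^ 2) * KK (AT N) W x y) := by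
    refine EEp_congr fun W hW => ?_
    unfold En
    refine Finset.sum_congr rfl fun x _ => Finset.sum_congr rfl fun y _ => ?_
    rw [hW, hW]
    ring
  rw [h1, EEp_sum (fun _ => hε) _ fun x _ => Adm_sum _ fun y _ => adm_cmul (Adm_KK hA x y) _]
  refine Finset.sum_congr rfl fun x _ => ?_
  rw [EEp_sum (fun _ => hε) _ fun y _ => adm_cmul (Adm_KK hA x y) _]
  refine Finset.sum_congr rfl fun y _ => ?_
  rw [EEp_mul]
  ring

/-- **far mass** at distance `R/√ε` -/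
theorem Far_far {γ ε R : ℝ} (hγ : 0 < γ) (hε : 0 < ε) (hεγ : ε ≤ γ) (hε1 : ε ≤ 1) (hR : 3 ≤ R)
    (U : Tor N → ℝ) :
    Far (AT N) γ U ε (Bx N (R / √ε)) ≤ 1800 / γ ^ 2 / R ^ 2 * (N : ℝ) ^ 2 := by
  have hA := AT_symm N
  have hs : 0 < √ε := Real.sqrt_pos.2 hε
  have hs1 : √ε ≤ 1 := by rw [← Real.sqrt_one]; exact Real.sqrt_le_sqrt hε1
  have hR0 : 0 < R := by linarith
  set y0 : ℝ := R / √ε / 3 with hy0
  have hy1 : 1 ≤ y0 := by
    rw [hy0, le_div_iff₀ (by norm_num), le_div_iff₀ hs]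
    nlinarith
  set r : ℕ := ⌊y0⌋₊ with hr
  have hr1 : 1 ≤ r := Nat.le_floor (by exact_mod_cast hy1)
  have hrle : (r : ℝ) ≤ y0 := Nat.floor_le (by linarith)
  have hrge : y0 / 2 ≤ (r : ℝ) := by
    have h1 : y0 < (r : ℝ) + 1 := Nat.lt_floor_add_one _
    have h2 : (1 : ℝ) ≤ r := by exact_mod_cast hr1
    linarith
  have hfk := FIN.far_kernel (N := N)
    (k := fun x y => ε ^ 2 * EEp γ (fun _ => ε) U (fun W => KK (AT N) W x y))
    (fun x y => mul_nonneg (sq_nonneg _) (EEp_nonneg fun W _ => KK_nonneg _ _))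
    (C := 1 / γ ^ 2) (by positivity) (fun f => kernel_energy hγ hε hεγ U f) hr1
  have h1 : Far (AT N) γ U ε (Bx N (R / √ε)) ≤ 1 / ε *
      ∑ x, ∑ y ∈ Finset.univ.filter (fun y : Tor N => 3 * r < nrm (y - x)),
        ε ^ 2 * EEp γ (fun _ => ε) U (fun W => KK (AT N) W x y) := by
    unfold Far
    rw [Finset.mul_sum]
    refine Finset.sum_le_sum fun x _ => ?_
    unfold Op.KS
    rw [EEp_mul, EEp_sum (fun _ => hε) _ fun y _ => Adm_KK hA x y, Finset.mul_sum, Finset.mul_sum]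
    have hsub : (Bx N (R / √ε) x)ᶜ ⊆
        Finset.univ.filter (fun y : Tor N => 3 * r < nrm (y - x)) := by
      intro y hy
      rw [Finset.mem_compl, mem_Bx, not_le] at hy
      rw [Finset.mem_filter]
      refine ⟨Finset.mem_univ _, ?_⟩
      have h2 : (3 * r : ℝ) < nrm (y - x) := by
        rw [nrm_sub_comm y x]
        have h3 : (3 * r : ℝ) ≤ R / √ε := by
          rw [hy0] at hrle
          linarith
        linarith
      exact_mod_cast h2
    refine (Finset.sum_le_sum_of_subset_of_nonneg hsub fun y _ _ =>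
      mul_nonneg hε.le (EEp_nonneg fun W _ => KK_nonneg _ _)).trans (le_of_eq ?_)
    refine Finset.sum_congr rfl fun y _ => ?_
    field_simp
  refine h1.trans ?_
  refine (mul_le_mul_of_nonneg_left hfk (by positivity)).trans ?_
  have h2 : R ^ 2 / (36 * ε) ≤ (r : ℝ) ^ 2 := by
    have h3 := pow_le_pow_left₀ (by linarith) hrge 2
    refine le_trans (le_of_eq ?_) h3
    rw [hy0]
    rw [div_pow, div_pow, div_pow, Real.sq_sqrt hε.le]
    field_simp
    norm_num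
  have hN := N_sq_pos (N := N)
  have hr0 : (0 : ℝ) < (r : ℝ) ^ 2 := by
    have : (0 : ℝ) < r := by exact_mod_cast hr1
    positivity
  rw [one_div_mul_eq_div, div_div, div_le_iff₀ (by positivity)]
  have h4 : 1800 / γ ^ 2 / R ^ 2 * (N : ℝ) ^ 2 * ((r : ℝ) ^ 2 * ε) ≥
      1800 / γ ^ 2 / R ^ 2 * (N : ℝ) ^ 2 * (R ^ 2 / (36 * ε) * ε) := by
    refine mul_le_mul_of_nonneg_left ?_ (by positivity)
    exact mul_le_mul_of_nonneg_right h2 hε.le
  refine le_trans (le_of_eq ?_) h4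
  field_simp
  ring

/-! ### near mass -/

/-- **near mass** from the static theorem -/
theorem Near_le {γ ε R η θ : ℝ} (hγ : 0 < γ) (hε : 0 < ε)
    {U : Tor N → ℝ}
    (hst : ∀ φ : Tor N → ℝ, (∀ x y, |φ x - φ y| ≤ nrm (x - y)) →
      ε * ∑ z, EEp γ (fun _ => ε) U (fun W => mm (AT N) W z * muf (AT N) W φ z ^ 2) ≤
        η * (N : ℝ) ^ 2 →
      ∑ x, ∑ y ∈ Finset.univ.filter (fun y => (nrm (x - y) : ℝ) ≤ R / Real.sqrt ε),
        ε ^ 2 * EEp γ (fun _ => ε) U (fun W => KK (AT N) W x y) * (φ x - φ y) ^ 2 ≤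
        θ * (N : ℝ) ^ 2)
    (hl : ε * (∑ i, ∑ z, EEp γ (fun _ => ε) U
      (fun W => mm (AT N) W z * muf (AT N) W (phi N i) z ^ 2)) / (N : ℝ) ^ 2 ≤ η) :
    Near N γ U ε (R / √ε) ≤ Real.pi ^ 2 * θ * (N : ℝ) ^ 2 := by
  have hA := AT_symm N
  have hN := N_sq_pos (N := N)
  have hnn : ∀ i : Fin 4, 0 ≤ ∑ z, EEp γ (fun _ => ε) U
      (fun W => mm (AT N) W z * muf (AT N) W (phi N i) z ^ 2) := fun i =>
    Finset.sum_nonneg fun z _ => EEp_nonneg fun W hW =>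
      mul_nonneg (mm_pos hA (fun x => by rw [hW]; linarith) z).le (sq_nonneg _)
  have h1 : ∀ i : Fin 4, ∑ x, ∑ y ∈ Finset.univ.filter
      (fun y => (nrm (x - y) : ℝ) ≤ R / Real.sqrt ε),
        ε ^ 2 * EEp γ (fun _ => ε) U (fun W => KK (AT N) W x y) * (phi N i x - phi N i y) ^ 2 ≤
        θ * (N : ℝ) ^ 2 := by
    intro i
    refine hst (phi N i) (phi_lip i) ?_
    rw [div_le_iff₀ hN] at hl
    refine le_trans (mul_le_mul_of_nonneg_left ?_ hε.le) hl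
    exact Finset.single_le_sum (f := fun i => ∑ z, EEp γ (fun _ => ε) U
      (fun W => mm (AT N) W z * muf (AT N) W (phi N i) z ^ 2)) (fun i _ => hnn i)
      (Finset.mem_univ i)
  have hpi : 0 < Real.pi ^ 2 := by positivity
  have h2 : Near N γ U ε (R / √ε) ≤ Real.pi ^ 2 / 4 * ∑ i : Fin 4, ∑ x, ∑ y ∈ Finset.univ.filter
      (fun y => (nrm (x - y) : ℝ) ≤ R / Real.sqrt ε),
        ε ^ 2 * EEp γ (fun _ => ε) U (fun W => KK (AT N) W x y) *
          (phi N i x - phi N i y) ^ 2 := by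
    unfold Near
    rw [Finset.sum_comm, Finset.mul_sum]
    refine Finset.sum_le_sum fun x _ => ?_
    rw [EEp_sum (fun _ => hε) _ fun y _ =>
      adm_mul (adm_cmul (Adm_KK hA x y) _) (Adm_const _), Finset.sum_comm, Finset.mul_sum]
    refine Finset.sum_le_sum fun y _ => ?_
    have h3 : EEp γ (fun _ => ε) U
        (fun W => ε ^ 2 * KK (AT N) W x y * (nrm (x - y) : ℝ) ^ 2) =
        (nrm (x - y) : ℝ) ^ 2 * (ε ^ 2 * EEp γ (fun _ => ε) U (fun W => KK (AT N) W x y)) := by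
      rw [← EEp_mul, ← EEp_mul]
      refine EEp_congr fun W _ => ?_
      ring
    rw [h3, ← Finset.mul_sum]
    have h4 := dsq_ge x y
    have h5 : (nrm (x - y) : ℝ) ^ 2 ≤ Real.pi ^ 2 / 4 * dsq x y := by
      rw [div_mul_eq_mul_div, div_le_iff₀ hpi] at h4
      rw [div_mul_eq_mul_div, le_div_iff₀ (by norm_num)]
      linarith
    have h6 : 0 ≤ ε ^ 2 * EEp γ (fun _ => ε) U (fun W => KK (AT N) W x y) :=
      mul_nonneg (sq_nonneg _) (EEp_nonneg fun W _ => KK_nonneg _ _)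
    have h7 := mul_le_mul_of_nonneg_right h5 h6
    refine h7.trans (le_of_eq ?_)
    unfold dsq
    ring
  refine h2.trans ?_
  have h8 := Finset.sum_le_sum (s := (Finset.univ : Finset (Fin 4))) fun i _ => h1 i
  rw [Finset.sum_const, Finset.card_univ, Fintype.card_fin, nsmul_eq_mul] at h8
  refine (mul_le_mul_of_nonneg_left h8 (by positivity)).trans (le_of_eq ?_)
  push_cast
  ring

/-! ### monotonicity and crude bounds -/

theorem FL_mono {ι : Type*} [Fintype ι] [DecidableEq ι] {A : Matrix ι ι ℝ} (hA : A.IsSymm)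
    {γ ε ε' : ℝ} (U : ι → ℝ) (h0 : 0 < ε') (h1 : ε' < ε) (h2 : ε < γ) :
    FL A γ U ε' ≤ FL A γ U ε := by
  unfold FL
  refine Finset.sum_le_sum fun x _ => ?_
  have h := slope hA U h0 h1 h2 ∅ x
  rw [EEp_log_eq, EEp_log_eq]
  simpa using h

theorem FL_le {ι : Type*} [Fintype ι] [DecidableEq ι] {A : Matrix ι ι ℝ} (hA : A.IsSymm)
    {γ ε : ℝ} (U : ι → ℝ) (hε : 0 < ε) :
    FL A γ U ε ≤ Fintype.card ι * Real.log (1 / ε) := by
  unfold FL
  have h : ∀ x, EEp γ (fun _ => ε) U (fun W => Real.log (mm A W x)) ≤ Real.log (1 / ε) := by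
    intro x
    rw [EEp_log_eq]
    unfold Phi
    have h1 : ∫ c, Real.log (mm A (Wc U (fun _ => γ - ε) (fun _ => ε) c) x) ∂(mu ι) ≤
        ∫ _c, Real.log (1 / ε) ∂(mu ι) := by
      refine integral_mono (integrable_log_mm hA hε (fun _ => le_rfl) x) (integrable_const _)
        fun c => ?_
      have hW : ∀ x, (Wc U (fun _ => γ - ε) (fun _ => ε) c x).im ≤ -ε := fun x => by
        rw [Wc_im]
      exact Real.log_le_log (mm_pos hA (fun x => (hW x).trans_lt (by linarith)) x)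
        (mm_upper hA hε hW x)
    simpa using h1
  refine (Finset.sum_le_sum fun x _ => h x).trans (le_of_eq ?_)
  rw [Finset.sum_const, Finset.card_univ, nsmul_eq_mul]

/-! ### the theorem -/

/-- at a good absorption the rate is at least `1 - d` -/
theorem good_gf {γ ε a R θ q X C0 d B0 err : ℝ} (hγ : 0 < γ) (hε0 : 0 < ε) (hεγ : ε ≤ γ / 2)
    (hε1 : ε ≤ 1) (ha0 : 0 < a) (hR3 : 3 ≤ R) (hX0 : 0 < X)
    (hC0 : C0 = 2 * (4 + (B0 ^ 2 + γ ^ 2)) / γ) (hXC : 2 * (C0 / X) = d / 4)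
    (hqX : X ^ 2 / γ * q = d / 4) (hRq : 1800 / γ ^ 2 / R ^ 2 ≤ q / 2)
    (hθq : 1 / a ^ 2 * (Real.pi ^ 2 * θ) = q / 2) (herr : err = d / 2)
    {U : Tor N → ℝ} (hU : ∀ x, |U x| ≤ B0)
    (hnear : Near N γ U ε (R / √ε) ≤ Real.pi ^ 2 * θ * (N : ℝ) ^ 2) :
    1 - d ≤ gf N γ U a err ε := by
  have hA := AT_symm N
  have hN := N_sq_pos (N := N)
  have hfar := Far_far hγ hε0 (by linarith) hε1 hR3 U
  have hF := Far_le (R := R) (γ := γ) hε0 ha0 U
  have hF2 : Far (AT N) γ U ε (Bx N (a / √ε)) ≤ q * (N : ℝ) ^ 2 := by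
    refine hF.trans ?_
    have h1 : 1 / a ^ 2 * Near N γ U ε (R / √ε) ≤ q / 2 * (N : ℝ) ^ 2 := by
      refine (mul_le_mul_of_nonneg_left hnear (by positivity)).trans (le_of_eq ?_)
      rw [← hθq]
      ring
    have h2 : Far (AT N) γ U ε (Bx N (R / √ε)) ≤ q / 2 * (N : ℝ) ^ 2 :=
      hfar.trans (mul_le_mul_of_nonneg_right hRq hN.le)
    linarith
  have hRR := sum_RR_le hA hγ hε0 (by linarith) U hU (row_sq_le (N := N))
    (Bx N (a / √ε)) (fun x => self_mem_Bx (by positivity) x) hX0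
  rw [← hC0, card_Tor, hXC] at hRR
  have h3 : ∑ x, EEp γ (fun _ => ε) U
      (fun W => Op.RR (AT N) ε (Bx N (a / √ε) x)ᶜ x W) ≤ (d / 2) * (N : ℝ) ^ 2 := by
    refine hRR.trans ?_
    have h4 : X ^ 2 / γ * Far (AT N) γ U ε (Bx N (a / √ε)) ≤
        d / 4 * (N : ℝ) ^ 2 := by
      refine (mul_le_mul_of_nonneg_left hF2 (by positivity)).trans (le_of_eq ?_)
      rw [← hqX]
      ring
    linarith
  unfold gf
  rw [herr]
  have h5 : (∑ x, EEp γ (fun _ => ε) U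
      (fun W => Op.RR (AT N) ε (Bx N (a / √ε) x)ᶜ x W)) / (N : ℝ) ^ 2 ≤ d / 2 := by
    rw [div_le_iff₀ hN]
    exact h3
  linarith

/-- the argument of block S4 at one torus, from the parameters -/
theorem small_case {γ a b0 d η b : ℝ} (hγ : 0 < γ) (hb00 : 0 < b0)
    (hb0γ : b0 ≤ γ / 2) (hb0a : b0 ≤ a ^ 2) (ha0 : 0 < a) (hd0 : 0 < d)
    (hd1 : d ≤ 1 / 2) (hη0 : 0 < η) (herr : 2 * a * √(54 / γ) = d / 2) (U : Tor N → ℝ)
    (hgood : ∀ ε, 0 < ε → ε ≤ b0 → ε * (∑ i, ∑ z, EEp γ (fun _ => ε) U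
      (fun W => mm (AT N) W z * muf (AT N) W (phi N i) z ^ 2)) / (N : ℝ) ^ 2 ≤ η →
      1 - d ≤ gf N γ U a (2 * a * √(54 / γ)) ε) (hb : 0 < b) (hbb : b ≤ b0) :
    FL (AT N) γ U b / (N : ℝ) ^ 2 ≤ FL (AT N) γ U b0 / (N : ℝ) ^ 2 -
      (1 - 2 * d) * Real.log (b0 / b) + (d + 8 / γ ^ 2 / η) := by
  have hA := AT_symm N
  have hN := N_sq_pos (N := N)
  have hS : 0 ≤ Real.log (b0 / b) := Real.log_nonneg (by rw [le_div_iff₀ hb]; linarith)
  have hbS : b0 * Real.exp (-Real.log (b0 / b)) = b := by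
    rw [Real.exp_neg, Real.exp_log (by positivity)]
    field_simp
  have hes : ∀ s : ℝ, 0 ≤ s → 0 < b0 * Real.exp (-s) ∧ b0 * Real.exp (-s) ≤ b0 := by
    intro s hs
    have h1 : Real.exp (-s) ≤ 1 := Real.exp_le_one_iff.2 (by linarith)
    exact ⟨by positivity, by nlinarith⟩
  have hanti : AntitoneOn (fun s => FL (AT N) γ U (b0 * Real.exp (-s)) / (N : ℝ) ^ 2)
      (Set.Ici 0) := by
    intro s hs t ht hst
    have hs' : 0 ≤ s := hs
    have ht' : 0 ≤ t := ht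
    show FL (AT N) γ U (b0 * Real.exp (-t)) / (N : ℝ) ^ 2 ≤
      FL (AT N) γ U (b0 * Real.exp (-s)) / (N : ℝ) ^ 2
    refine div_le_div_of_nonneg_right ?_ hN.le
    rcases hst.eq_or_lt with h | h
    · rw [h]
    · refine FL_mono hA U (hes t ht').1 ?_ ?_
      · exact mul_lt_mul_of_pos_left (Real.exp_lt_exp.2 (by linarith)) hb00
      · linarith [(hes s hs').2]
  have hg1 : ∀ s, 0 ≤ s → s ≤ Real.log (b0 / b) → FIN.lS N γ b0 U s < η →
      1 - d ≤ gf N γ U a (2 * a * √(54 / γ)) (b0 * Real.exp (-s)) := by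
    intro s hs _ hls
    obtain ⟨hε0, hεb⟩ := hes s hs
    exact hgood _ hε0 hεb hls.le
  have hg2 : ∀ s, 0 ≤ s → s ≤ Real.log (b0 / b) →
      -d ≤ gf N γ U a (2 * a * √(54 / γ)) (b0 * Real.exp (-s)) := by
    intro s hs _
    have h1 := gf_lower (N := N) (γ := γ) (a := a) (err := 2 * a * √(54 / γ)) (hes s hs).1 U
    linarith
  have hstep : ∀ s h, 0 ≤ s → s ≤ Real.log (b0 / b) → 0 < h → h ≤ d →
      (fun s => FL (AT N) γ U (b0 * Real.exp (-s)) / (N : ℝ) ^ 2) (s + h) ≤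
      (fun s => FL (AT N) γ U (b0 * Real.exp (-s)) / (N : ℝ) ^ 2) s - (1 - Real.exp (-h)) *
        gf N γ U a (2 * a * √(54 / γ)) (b0 * Real.exp (-s)) := by
    intro s h hs _ hh hhd
    obtain ⟨hε0, hεb⟩ := hes s hs
    have h1 := gf_step hγ hε0 (by linarith) ha0 (by linarith) hh (by linarith) U
    have h2 : b0 * Real.exp (-(s + h)) = b0 * Real.exp (-s) * Real.exp (-h) := by
      rw [neg_add, Real.exp_add]
      ring
    show FL (AT N) γ U (b0 * Real.exp (-(s + h))) / (N : ℝ) ^ 2 ≤ _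
    rw [h2]
    exact h1
  have hmain := FIN.slope_final (Φ := fun s => FL (AT N) γ U (b0 * Real.exp (-s)) / (N : ℝ) ^ 2)
    (g := fun s => gf N γ U a (2 * a * √(54 / γ)) (b0 * Real.exp (-s)))
    (l := FIN.lS N γ b0 U) (S := Real.log (b0 / b)) (δ := d) (η := η) (Dmax := 8 / γ ^ 2)
    hS hd0 (by linarith) hη0 (by positivity) hanti
    (fun s hs _ => FIN.lS_nonneg hb00 U s)
    (FIN.lS_intervalIntegrable hb00 (by linarith) U hS)
    (FIN.lS_integral_le hγ hb00 (by linarith) U hS) hg1 hg2 hstep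
  simp only [hbS, neg_zero, Real.exp_zero, mul_one] at hmain
  exact hmain

theorem crude {γ ε : ℝ} (U : Tor N → ℝ) (hε : 0 < ε) :
    FL (AT N) γ U ε / (N : ℝ) ^ 2 ≤ Real.log (1 / ε) := by
  have h := FL_le (AT_symm N) (γ := γ) U hε
  rw [card_Tor] at h
  rw [div_le_iff₀ (N_sq_pos (N := N))]
  linarith

theorem final_arith {δ d b0 b γ F F0 D : ℝ} (hb00 : 0 < b0) (hb01 : b0 ≤ 1) (hb : 0 < b)
    (hbb : b ≤ b0) (hd0 : 0 < d) (hdδ : 2 * d ≤ δ) (h0 : F0 ≤ Real.log (1 / b0))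
    (h : F ≤ F0 - (1 - 2 * d) * Real.log (b0 / b) + D) :
    F ≤ -(1 - δ) * Real.log (1 / b) +
      (|2 - δ| * (|Real.log b0| + |Real.log γ|) + 2 * |Real.log b0| + D) := by
  have h2 : Real.log (b0 / b) = Real.log (1 / b) - Real.log (1 / b0) := by
    rw [Real.log_div hb00.ne' hb.ne', one_div, one_div, Real.log_inv, Real.log_inv]
    ring
  have h3 : Real.log (1 / b0) = |Real.log b0| := by
    rw [one_div, Real.log_inv, abs_of_nonpos (Real.log_nonpos hb00.le hb01)]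
  have h4 : 0 ≤ Real.log (1 / b) := Real.log_nonneg (by rw [le_div_iff₀ hb]; linarith)
  have h5 : 0 ≤ |Real.log b0| := abs_nonneg _
  have h6 : 0 ≤ |2 - δ| * (|Real.log b0| + |Real.log γ|) := by positivity
  rw [h2, h3] at h
  rw [h3] at h0
  have h7 := mul_nonneg (sub_nonneg.2 hdδ) h4
  have h8 := mul_nonneg hd0.le h5
  linarith

theorem large_arith {δ b0 b γ F D : ℝ} (hb00 : 0 < b0) (hb : 0 < b)
    (hbb : b0 < b) (hbγ : b ≤ γ) (hD : 0 ≤ D) (h : F ≤ Real.log (1 / b)) :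
    F ≤ -(1 - δ) * Real.log (1 / b) +
      (|2 - δ| * (|Real.log b0| + |Real.log γ|) + 2 * |Real.log b0| + D) := by
  have h2 : |Real.log b| ≤ |Real.log b0| + |Real.log γ| := by
    have h3 : Real.log b0 ≤ Real.log b := Real.log_le_log hb00 hbb.le
    have h4 : Real.log b ≤ Real.log γ := Real.log_le_log hb hbγ
    rw [abs_le]
    have h5 := neg_abs_le (Real.log b0)
    have h6 := le_abs_self (Real.log γ)
    have h7 := abs_nonneg (Real.log b0)
    have h8 := abs_nonneg (Real.log γ)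
    constructor <;> linarith
  have h3 : (2 - δ) * Real.log (1 / b) ≤ |2 - δ| * (|Real.log b0| + |Real.log γ|) := by
    refine (le_abs_self _).trans ?_
    rw [abs_mul, one_div, Real.log_inv, abs_neg]
    exact mul_le_mul_of_nonneg_left h2 (abs_nonneg _)
  have h4 := abs_nonneg (Real.log b0)
  linarith

/-- **LOC-5, quenched**: for every background bounded by `B0`,
`N⁻² ∑_x E_b log Im G_xx ≤ -(1-δ) log(1/b) + C`. -/
theorem loc5_quenched (hST : StaticThm) {γ B0 δ : ℝ} (hγ : 0 < γ) (hB0 : 0 ≤ B0) (hδ : 0 < δ) :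
    ∃ C : ℝ, ∀ (N : ℕ) [NeZero N], 3 ≤ N → ∀ U : Tor N → ℝ, (∀ x, |U x| ≤ B0) →
      ∀ b : ℝ, 0 < b → b ≤ γ →
        FL (AT N) γ U b / (N : ℝ) ^ 2 ≤ -(1 - δ) * Real.log (1 / b) + C := by
  -- parameters
  obtain ⟨d, hd0, hd1, hdδ⟩ : ∃ d : ℝ, 0 < d ∧ d ≤ 1 / 2 ∧ 2 * d ≤ δ :=
    ⟨min (δ / 2) (1 / 2), lt_min (by linarith) (by norm_num), min_le_right _ _, by
      linarith [min_le_left (δ / 2) (1 / 2 : ℝ)]⟩
  have hs54 : 0 < √(54 / γ) := Real.sqrt_pos.2 (by positivity)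
  obtain ⟨a, ha0, herr⟩ : ∃ a : ℝ, 0 < a ∧ 2 * a * √(54 / γ) = d / 2 :=
    ⟨d / 4 / √(54 / γ), by positivity, by field_simp; norm_num⟩
  obtain ⟨b0, hb00, hb0γ, hb0a, hb01⟩ : ∃ b0 : ℝ, 0 < b0 ∧ b0 ≤ γ / 2 ∧ b0 ≤ a ^ 2 ∧ b0 ≤ 1 :=
    ⟨min (γ / 2) (min (a ^ 2) 1), lt_min (by linarith) (lt_min (by positivity) one_pos),
      min_le_left _ _, (min_le_right _ _).trans (min_le_left _ _),
      (min_le_right _ _).trans (min_le_right _ _)⟩
  obtain ⟨C0, hC0⟩ : ∃ C0 : ℝ, C0 = 2 * (4 + (B0 ^ 2 + γ ^ 2)) / γ := ⟨_, rfl⟩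
  have hC00 : 0 < C0 := by rw [hC0]; positivity
  obtain ⟨X, hX0, hXC⟩ : ∃ X : ℝ, 0 < X ∧ 2 * (C0 / X) = d / 4 :=
    ⟨8 * C0 / d, by positivity, by field_simp; norm_num⟩
  obtain ⟨q, hq0, hqX⟩ : ∃ q : ℝ, 0 < q ∧ X ^ 2 / γ * q = d / 4 :=
    ⟨γ / X ^ 2 * (d / 4), by positivity, by field_simp⟩
  obtain ⟨R, hR3, hRq⟩ : ∃ R : ℝ, 3 ≤ R ∧ 1800 / γ ^ 2 / R ^ 2 ≤ q / 2 := by
    refine ⟨3 + √(2 * (1800 / γ ^ 2) / q), by
      linarith [Real.sqrt_nonneg (2 * (1800 / γ ^ 2) / q)], ?_⟩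
    have h2 : √(2 * (1800 / γ ^ 2) / q) ≤ 3 + √(2 * (1800 / γ ^ 2) / q) := by linarith
    have h3 := pow_le_pow_left₀ (Real.sqrt_nonneg _) h2 2
    rw [Real.sq_sqrt (by positivity), div_le_iff₀ hq0] at h3
    rw [div_le_iff₀ (by positivity)]
    linarith
  have hpi : 0 < Real.pi := Real.pi_pos
  obtain ⟨θ, hθ0, hθq⟩ : ∃ θ : ℝ, 0 < θ ∧ 1 / a ^ 2 * (Real.pi ^ 2 * θ) = q / 2 :=
    ⟨q * a ^ 2 / (2 * Real.pi ^ 2), by positivity, by field_simp⟩
  obtain ⟨η, hη0, hη⟩ := hST γ hγ B0 hB0 R (by linarith) θ hθ0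
  -- the constant
  refine ⟨|2 - δ| * (|Real.log b0| + |Real.log γ|) + 2 * |Real.log b0| + (d + 8 / γ ^ 2 / η),
    ?_⟩
  intro N _ hN3 U hU b hb hbγ
  by_cases hcase : b0 < b
  · exact large_arith hb00 hb hcase hbγ (by positivity) (crude U hb)
  · have hcase' : b ≤ b0 := not_lt.1 hcase
    refine final_arith hb00 hb01 hb hcase' hd0 hdδ (crude (γ := γ) U hb00) ?_
    refine small_case hγ hb00 hb0γ hb0a ha0 hd0 hd1 hη0 herr U (fun ε hε0 hεb hl => ?_) hb hcase'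
    refine good_gf hγ hε0 (by linarith) (by linarith) ha0 hR3 hX0 hC0 hXC hqX hRq hθq herr hU ?_
    exact Near_le hγ hε0 (fun φ hφ h => hη N hN3 ε hε0 (by linarith) U hU φ hφ h) hl

end P365L5
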