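import Vale.Agent.P365.L5.Cau

set_option linter.all false

/-!
# P365, LOC-5: the exact logarithmic average of an affine function on the kick circle.
-/

namespace P365L5

open MeasureTheory ProbabilityTheory Complex P365L
open scoped ENNReal NNReal Real ComplexConjugate

/-- the radius coefficient of the kick circle -/
noncomputable def bb (h : ℝ) (g : ℂ) : ℂ := g⁻¹ * (cau_p h g + I) / (2 * I * (cau_p h g).im)

theorem tz_eq {h : ℝ} (hh : 0 < h) {g : ℂ} (hg : h * ‖g‖ ^ 2 < g.im) (t : ℝ) :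
    tz h g t = bb h g * (uu (cau_p h g) t - u0 (cau_p h g)) := by
  have hg0 := cau_ne_zero hh hg
  have hp := cau_p_pos hh hg
  have hpi : cau_p h g + I = -(h * g)⁻¹ := by
    unfold cau_p
    ring
  have h2 : (h : ℂ) ≠ 0 := Complex.ofReal_ne_zero.2 hh.ne'
  have hpim : ((cau_p h g).im : ℂ) ≠ 0 := Complex.ofReal_ne_zero.2 hp.ne'
  set p := cau_p h g with hpdef
  have h1 : tz h g t = g⁻¹ * (1 + (p + I) / (t - p)) := by
    have h3 := cau_sub_ne hp t
    unfold tz
    rw [cau_den hh hg0, ← hpdef]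
    field_simp
    ring
  have h3 := cau_sub_ne hp t
  have h4 := mI_sub_ne hp
  have h5 : (2 * I * (p.im : ℂ)) = p - conj p := by
    rw [Complex.sub_conj]
    push_cast
    ring
  have h6 : p - conj p ≠ 0 := by
    rw [← h5]
    exact mul_ne_zero (mul_ne_zero two_ne_zero Complex.I_ne_zero) hpim
  rw [h1, bb, ← hpdef, h5, uu, u0]
  have h7 : (-I - p) = -(p + I) := by ring
  have h8 : p + I ≠ 0 := by
    intro h9
    apply h4
    rw [h7, h9, neg_zero]
  rw [h7]
  field_simp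
  ring

theorem norm_bb {h : ℝ} (hh : 0 < h) {g : ℂ} (hg : h * ‖g‖ ^ 2 < g.im) :
    ‖bb h g‖ = 1 / (2 * (g.im - h * ‖g‖ ^ 2)) := by
  have hg0 := cau_ne_zero hh hg
  have hgn : 0 < ‖g‖ := norm_pos_iff.2 hg0
  have hp := cau_p_pos hh hg
  have hpi : cau_p h g + I = -(h * g)⁻¹ := by
    unfold cau_p
    ring
  rw [bb, hpi, norm_div, norm_mul, norm_inv, norm_neg, norm_inv, norm_mul, norm_mul, norm_mul,
    Complex.norm_real, Complex.norm_real, Complex.norm_I, Real.norm_of_nonneg hh.le,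
    Real.norm_of_nonneg hp.le, cau_p_im hh hg0]
  have h1 : g.im - h * ‖g‖ ^ 2 ≠ 0 := by linarith
  have h2 : (-1 + g.im / (h * ‖g‖ ^ 2)) = (g.im - h * ‖g‖ ^ 2) / (h * ‖g‖ ^ 2) := by
    field_simp
    ring
  rw [h2]
  simp only [Complex.norm_ofNat]
  field_simp

theorem one_sub_u0_tz {h : ℝ} (hh : 0 < h) {g : ℂ} (hg : h * ‖g‖ ^ 2 < g.im) :
    1 - ‖u0 (cau_p h g)‖ ^ 2 = 4 * h * (g.im - h * ‖g‖ ^ 2) := by
  have hg0 := cau_ne_zero hh hg
  have hgn : 0 < ‖g‖ := norm_pos_iff.2 hg0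
  have hp := cau_p_pos hh hg
  rw [one_sub_u0 hp]
  have h1 : -I - cau_p h g = (h * g)⁻¹ := by
    unfold cau_p
    ring
  rw [h1, norm_inv, norm_mul, Complex.norm_real, Real.norm_of_nonneg hh.le, cau_p_im hh hg0]
  field_simp
  ring

/-- an affine function that is nonnegative on the circle minus one point -/
theorem affine_circle {p : ℂ} (hp : 0 < p.im) {α : ℝ} {κ : ℂ}
    (hpos : ∀ t, 0 ≤ α + (κ * uu p t).re) : ‖κ‖ ≤ α := by
  by_cases hκ : κ = 0
  · have := hpos 0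
    rw [hκ] at this ⊢
    simpa using this
  have hκn : 0 < ‖κ‖ := norm_pos_iff.2 hκ
  obtain ⟨u, hu⟩ : ∃ u : ℂ, u = -(conj κ) / ‖κ‖ := ⟨_, rfl⟩
  have hκu : κ * u = -(‖κ‖ : ℂ) := by
    have h1 : κ * conj κ = (‖κ‖ : ℂ) ^ 2 := Complex.mul_conj' κ
    have h2 : (‖κ‖ : ℂ) ≠ 0 := Complex.ofReal_ne_zero.2 hκn.ne'
    rw [hu]
    field_simp
    linear_combination -h1
  have hun : ‖u‖ = 1 := by
    rw [hu, norm_div, norm_neg, Complex.norm_conj, Complex.norm_real, norm_norm,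
      div_self hκn.ne']
  have huu : u * conj u = 1 := by
    rw [Complex.mul_conj', hun]
    norm_num
  by_cases h1 : u = 1
  · have hlim : Filter.Tendsto (fun t : ℝ => α + (κ * uu p t).re) Filter.atTop
        (nhds (α + (κ * 1).re)) := by
      have h2 : Filter.Tendsto (fun t : ℝ => uu p t) Filter.atTop (nhds 1) := by
        have h3 : (fun t : ℝ => uu p t) =
            fun t : ℝ => 1 + (p - conj p) * ((t : ℂ) - p)⁻¹ := by
          funext t
          have h3 := cau_sub_ne hp t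
          rw [uu]
          field_simp
          ring
        rw [h3]
        have h4 := ((cau_tendsto_inv p Filter.tendsto_abs_atTop_atTop).const_mul
          (p - conj p)).const_add 1
        simpa only [mul_zero, add_zero] using h4
      exact ((Complex.continuous_re.tendsto _).comp (h2.const_mul κ)).const_add α
    have h5 : 0 ≤ α + (κ * 1).re := ge_of_tendsto' hlim hpos
    rw [← h1, hκu] at h5
    simp only [neg_re, ofReal_re] at h5
    linarith
  · have h2 : u - 1 ≠ 0 := sub_ne_zero.2 h1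
    obtain ⟨s, hs⟩ : ∃ s : ℂ, s = (u * p - conj p) / (u - 1) := ⟨_, rfl⟩
    have hsr : conj s = s := by
      have h3 : conj u - 1 ≠ 0 := by
        intro h4
        apply h2
        have h5 := congrArg conj h4
        simpa using h5
      have h4 : conj s = (conj u * conj p - p) / (conj u - 1) := by
        rw [hs]
        simp
      rw [h4, hs, div_eq_div_iff h3 h2]
      linear_combination (conj p - p) * huu
    obtain ⟨t, ht⟩ : ∃ t : ℝ, s = t := ⟨s.re, (Complex.conj_eq_iff_re.1 hsr).symm⟩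
    have h3 : uu p t = u := by
      have h4 := cau_sub_ne hp t
      rw [uu, div_eq_iff h4, ← ht]
      have h5 : s * (u - 1) = u * p - conj p := by
        rw [hs]
        field_simp
      linear_combination -h5
    have h4 := hpos t
    rw [h3, hκu] at h4
    simp only [neg_re, ofReal_re] at h4
    linarith

/-- **exact logarithmic average** with a strictly positive affine function -/
theorem log_affine {p : ℂ} (hp : 0 < p.im) {α : ℝ} {κ : ℂ} (hα : ‖κ‖ < α) :
    0 < α + (κ * u0 p).re - (α - Real.sqrt (α ^ 2 - ‖κ‖ ^ 2)) / 2 * (1 - ‖u0 p‖ ^ 2) ∧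
    ∫ t, Real.log (α + (κ * uu p t).re) ∂nu =
      Real.log (α + (κ * u0 p).re - (α - Real.sqrt (α ^ 2 - ‖κ‖ ^ 2)) / 2 * (1 - ‖u0 p‖ ^ 2)) := by
  have hα0 : 0 < α := (norm_nonneg κ).trans_lt hα
  have hS0 : 0 < α ^ 2 - ‖κ‖ ^ 2 := by nlinarith [norm_nonneg κ]
  obtain ⟨S, hS⟩ : ∃ S : ℝ, S = Real.sqrt (α ^ 2 - ‖κ‖ ^ 2) := ⟨_, rfl⟩
  have hSS : S ^ 2 = α ^ 2 - ‖κ‖ ^ 2 := by rw [hS, Real.sq_sqrt hS0.le]
  have hSpos : 0 < S := by rw [hS]; exact Real.sqrt_pos.2 hS0
  rw [← hS]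
  obtain ⟨a, ha⟩ : ∃ a : ℝ, a = (α + S) / 2 := ⟨_, rfl⟩
  have hapos : 0 < a := by rw [ha]; linarith
  obtain ⟨τ, hτ⟩ : ∃ τ : ℂ, τ = κ / (2 * a) := ⟨_, rfl⟩
  have hτn : ‖τ‖ = ‖κ‖ / (2 * a) := by
    rw [hτ, norm_div, norm_mul, Complex.norm_real, Real.norm_of_nonneg hapos.le]
    simp
  have hτ1 : ‖τ‖ < 1 := by
    rw [hτn, div_lt_one (by positivity), ha]
    linarith
  have hfac : ∀ u : ℂ, a * ‖1 + τ * u‖ ^ 2 = a + (κ * u).re + (α - S) / 2 * ‖u‖ ^ 2 := by
    intro u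
    have h1 : ‖1 + τ * u‖ ^ 2 = 1 + 2 * (τ * u).re + ‖τ‖ ^ 2 * ‖u‖ ^ 2 := by
      rw [← mul_pow, ← norm_mul, Complex.sq_norm, Complex.sq_norm, normSq_apply, normSq_apply]
      simp only [add_re, one_re, add_im, one_im]
      ring
    have h2 : (τ * u).re = (κ * u).re / (2 * a) := by
      have h3 : τ * u = (κ * u) / ((2 * a : ℝ) : ℂ) := by
        rw [hτ]
        push_cast
        ring
      rw [h3, Complex.div_ofReal_re]
    rw [h1, h2, hτn]
    have h4 : ‖κ‖ ^ 2 = (α - S) * (2 * a) := by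
      rw [ha]
      nlinarith
    have h5 : (‖κ‖ / (2 * a)) ^ 2 = (α - S) / (2 * a) := by
      rw [div_pow, h4]
      field_simp
    rw [h5]
    field_simp
  have h1 : ∀ t, Real.log (α + (κ * uu p t).re) = Real.log a + 2 * Real.log ‖1 + τ * uu p t‖ := by
    intro t
    have h2 : α + (κ * uu p t).re = a * ‖1 + τ * uu p t‖ ^ 2 := by
      rw [hfac, norm_uu hp, ha]
      ring
    have h3 : ‖1 + τ * uu p t‖ ≠ 0 := by
      refine (norm_pos_iff.2 (one_add_ne_zero ?_)).ne'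
      rw [norm_mul, norm_uu hp, mul_one]
      exact hτ1
    rw [h2, Real.log_mul hapos.ne' (pow_ne_zero 2 h3), Real.log_pow]
    push_cast
    ring
  have h0 : ‖1 + τ * u0 p‖ ≠ 0 := by
    refine (norm_pos_iff.2 (one_add_ne_zero ?_)).ne'
    rw [norm_mul]
    nlinarith [norm_nonneg τ, norm_nonneg (u0 p), norm_u0_le hp]
  have hint : Integrable (fun t => Real.log ‖1 + τ * uu p t‖) nu := by
    have hm := measurable_uu p
    refine Integrable.of_bound (C := max |Real.log (1 - ‖τ‖)| (Real.log 2))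
      (by fun_prop : Measurable fun t => Real.log ‖1 + τ * uu p t‖).aestronglyMeasurable
      (Filter.Eventually.of_forall fun t => ?_)
    have h2 : 1 - ‖τ‖ ≤ ‖1 + τ * uu p t‖ := by
      have h3 : ‖τ * uu p t‖ = ‖τ‖ := by rw [norm_mul, norm_uu hp, mul_one]
      have h4 : ‖(1 : ℂ)‖ ≤ ‖1 + τ * uu p t‖ + ‖τ * uu p t‖ := by
        have := norm_sub_le (1 + τ * uu p t) (τ * uu p t)
        rwa [add_sub_cancel_right] at this
      rw [norm_one] at h4
      linarith
    have h5 : 0 < 1 - ‖τ‖ := by linarith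
    have h6 : ‖1 + τ * uu p t‖ ≤ 2 := by
      refine (norm_add_le _ _).trans ?_
      rw [norm_one, norm_mul, norm_uu hp, mul_one]
      linarith
    rw [Real.norm_eq_abs, abs_le]
    constructor
    · have h7 := Real.log_le_log h5 h2
      have h8 := neg_abs_le (Real.log (1 - ‖τ‖))
      have h9 := le_max_left |Real.log (1 - ‖τ‖)| (Real.log 2)
      linarith
    · exact (Real.log_le_log (h5.trans_le h2) h6).trans (le_max_right _ _)
  have h2 : α + (κ * u0 p).re - (α - S) / 2 * (1 - ‖u0 p‖ ^ 2) = a * ‖1 + τ * u0 p‖ ^ 2 := by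
    rw [hfac, ha]
    ring
  refine ⟨by rw [h2]; positivity, ?_⟩
  simp only [h1]
  rw [integral_add (integrable_const _) (hint.const_mul _), integral_const, probReal_univ, one_smul,
    integral_const_mul, integral_log_uu hp hτ1]
  rw [h2, Real.log_mul hapos.ne' (pow_ne_zero 2 h0), Real.log_pow]
  push_cast
  ring

theorem sqrt_ineq {α β : ℝ} (hβ : 0 ≤ β) (h1 : β ≤ α) (h2 : α ≤ 1 + β) :
    β - Real.sqrt (2 * β) ≤ α - Real.sqrt (α ^ 2 - β ^ 2) := by
  have hs := Real.sqrt_nonneg (2 * β)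
  have hs2 : Real.sqrt (2 * β) ^ 2 = 2 * β := Real.sq_sqrt (by positivity)
  have h3 : Real.sqrt (α ^ 2 - β ^ 2) ≤ (α - β) + Real.sqrt (2 * β) := by
    rw [Real.sqrt_le_left (by linarith)]
    nlinarith [mul_nonneg (sub_nonneg.2 h1) hs, mul_nonneg hβ (by linarith : 0 ≤ 1 - (α - β))]
  linarith

/-- **main scalar estimate**, slightly contracted -/
theorem log_tz_le_aux {h : ℝ} (hh : 0 < h) {g : ℂ} (hg : h * ‖g‖ ^ 2 < g.im) {w : ℂ}
    (hw : w ≠ 0) (hpos : ∀ t, 0 ≤ 1 - (tz h g t * w).im) {s : ℝ} (hs0 : 0 < s) (hs1 : s < 1) :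
    ∫ t, Real.log (1 - s * (tz h g t * w).im) ∂nu ≤
      -(h * (s * ‖w‖)) + 2 * h * Real.sqrt (s * ‖w‖ * g.im) := by
  have hp := cau_p_pos hh hg
  set p := cau_p h g with hpdef
  have hm' : 0 < g.im - h * ‖g‖ ^ 2 := by linarith
  obtain ⟨m', hm'd⟩ : ∃ m' : ℝ, m' = g.im - h * ‖g‖ ^ 2 := ⟨_, rfl⟩
  rw [← hm'd] at hm'
  have hbn : ‖bb h g‖ = 1 / (2 * m') := by rw [norm_bb hh hg, hm'd]
  have hu0 : 1 - ‖u0 p‖ ^ 2 = 4 * h * m' := by rw [hpdef, one_sub_u0_tz hh hg, hm'd]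
  obtain ⟨κ, hκ⟩ : ∃ κ : ℂ, κ = I * bb h g * w := ⟨_, rfl⟩
  have hκn : ‖κ‖ = ‖w‖ / (2 * m') := by
    rw [hκ, norm_mul, norm_mul, Complex.norm_I, hbn]
    ring
  obtain ⟨α, hα⟩ : ∃ α : ℝ, α = 1 - (κ * u0 p).re := ⟨_, rfl⟩
  have hL : ∀ t, (tz h g t * w).im = 1 - α - (κ * uu p t).re := by
    intro t
    have h1 : κ * uu p t - κ * u0 p = I * (tz h g t * w) := by
      rw [hκ, tz_eq hh hg, ← hpdef]
      ring
    have h2 := congrArg Complex.re h1
    simp only [sub_re, Complex.I_mul_re] at h2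
    rw [hα]
    linarith
  have hκα : ‖κ‖ ≤ α := affine_circle hp fun t => by
    have h1 := hpos t
    rw [hL] at h1
    linarith
  have hα1 : α ≤ 1 + ‖κ‖ := by
    rw [hα]
    have h1 : |(κ * u0 p).re| ≤ ‖κ‖ := by
      refine (Complex.abs_re_le_norm _).trans ?_
      rw [norm_mul]
      nlinarith [norm_nonneg κ, norm_nonneg (u0 p), norm_u0_le hp]
    have := (abs_le.1 h1).1
    linarith
  -- contracted data
  obtain ⟨α', hα'⟩ : ∃ α' : ℝ, α' = (1 - s) + s * α := ⟨_, rfl⟩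
  obtain ⟨κ', hκ'⟩ : ∃ κ' : ℂ, κ' = (s : ℂ) * κ := ⟨_, rfl⟩
  have hκ'n : ‖κ'‖ = s * ‖κ‖ := by
    rw [hκ', norm_mul, Complex.norm_real, Real.norm_of_nonneg hs0.le]
  have hlt : ‖κ'‖ < α' := by
    rw [hκ'n, hα']
    nlinarith
  have hle : α' ≤ 1 + ‖κ'‖ := by
    rw [hκ'n, hα']
    nlinarith
  have hκre : ∀ u : ℂ, (κ' * u).re = s * (κ * u).re := by
    intro u
    rw [hκ', mul_assoc, Complex.re_ofReal_mul]
  have h1 : ∀ t, 1 - s * (tz h g t * w).im = α' + (κ' * uu p t).re := by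
    intro t
    rw [hL, hκre, hα']
    ring
  have h2 : α' + (κ' * u0 p).re = 1 := by
    rw [hκre, hα', hα]
    ring
  obtain ⟨h5, h6⟩ := log_affine hp hlt
  simp only [h1]
  rw [h6]
  rw [h2, hu0] at h5 ⊢
  have h3 := sqrt_ineq (norm_nonneg κ') hlt.le hle
  obtain ⟨S, hS⟩ : ∃ S : ℝ, S = Real.sqrt (α' ^ 2 - ‖κ'‖ ^ 2) := ⟨_, rfl⟩
  rw [← hS] at h3 h5 ⊢
  have h4 := Real.log_le_sub_one_of_pos h5
  refine h4.trans ?_
  have hb : ‖κ'‖ = s * ‖w‖ / (2 * m') := by
    rw [hκ'n, hκn]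
    ring
  have h8 : 2 * h * m' * Real.sqrt (2 * ‖κ'‖) ≤ 2 * h * Real.sqrt (s * ‖w‖ * g.im) := by
    have h9 : m' * Real.sqrt (2 * ‖κ'‖) ≤ Real.sqrt (s * ‖w‖ * g.im) := by
      rw [← Real.sqrt_sq hm'.le, ← Real.sqrt_mul (sq_nonneg _)]
      refine Real.sqrt_le_sqrt ?_
      rw [hb]
      have h10 : m' ^ 2 * (2 * (s * ‖w‖ / (2 * m'))) = s * ‖w‖ * m' := by
        field_simp
      rw [h10]
      have h11 : m' ≤ g.im := by
        rw [hm'd]
        have := mul_nonneg hh.le (sq_nonneg ‖g‖)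
        linarith
      exact mul_le_mul_of_nonneg_left h11 (by positivity)
    have h10 := mul_le_mul_of_nonneg_left h9 (by positivity : 0 ≤ 2 * h)
    calc 2 * h * m' * Real.sqrt (2 * ‖κ'‖) = 2 * h * (m' * Real.sqrt (2 * ‖κ'‖)) := by ring
      _ ≤ _ := h10
  have h9 : 2 * h * m' * ‖κ'‖ = h * (s * ‖w‖) := by
    rw [hb]
    field_simp
  have h10 := mul_le_mul_of_nonneg_left h3 (by positivity : 0 ≤ 2 * h * m')
  have h11 : 1 - (α' - S) / 2 * (4 * h * m') - 1 = -(2 * h * m' * (α' - S)) := by ring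
  rw [h11]
  rw [mul_sub] at h10
  linarith

theorem bounded_im_tz {h : ℝ} (hh : 0 < h) {g : ℂ} (hg : h * ‖g‖ ^ 2 < g.im) (w : ℂ) :
    ∃ C : ℝ, 0 ≤ C ∧ ∀ t, |(tz h g t * w).im| ≤ C := by
  obtain ⟨C, hC⟩ := bounded_tz hh hg
  refine ⟨C * ‖w‖, mul_nonneg ((norm_nonneg _).trans (hC 0)) (norm_nonneg _), fun t => ?_⟩
  refine (Complex.abs_im_le_norm _).trans ?_
  rw [norm_mul]
  exact mul_le_mul_of_nonneg_right (hC t) (norm_nonneg _)

/-- **main scalar estimate** -/
theorem log_tz_le {h : ℝ} (hh : 0 < h) {g : ℂ} (hg : h * ‖g‖ ^ 2 < g.im) {w : ℂ}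
    (hpos : ∀ t, 0 < 1 - (tz h g t * w).im)
    (hint : Integrable (fun t => Real.log (1 - (tz h g t * w).im)) nu) :
    ∫ t, Real.log (1 - (tz h g t * w).im) ∂nu ≤
      -(h * ‖w‖) + 2 * h * Real.sqrt (‖w‖ * g.im) := by
  have hm := cau_im_pos hh hg
  by_cases hw : w = 0
  · rw [hw]
    simp
  have key : ∀ s : ℝ, 0 < s → s < 1 → s * (∫ t, Real.log (1 - (tz h g t * w).im) ∂nu + h * ‖w‖) ≤
      2 * h * Real.sqrt (‖w‖ * g.im) := by
    intro s hs0 hs1
    have h1 := log_tz_le_aux hh hg hw (fun t => (hpos t).le) hs0 hs1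
    have h2 : s * ∫ t, Real.log (1 - (tz h g t * w).im) ∂nu ≤
        ∫ t, Real.log (1 - s * (tz h g t * w).im) ∂nu := by
      rw [← integral_const_mul]
      refine integral_mono (hint.const_mul _) ?_ ?_
      · obtain ⟨C, hC0, hC⟩ := bounded_im_tz hh hg w
        have hmeas : Measurable fun t => Real.log (1 - s * (tz h g t * w).im) := by
          have := measurable_tz h g
          fun_prop
        refine Integrable.of_bound (C := max |Real.log (1 - s)| (Real.log (1 + C)))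
          hmeas.aestronglyMeasurable (Filter.Eventually.of_forall fun t => ?_)
        have h3 : 1 - s ≤ 1 - s * (tz h g t * w).im := by nlinarith [hpos t]
        have h4 : 1 - s * (tz h g t * w).im ≤ 1 + C := by
          have h5 := (abs_le.1 (hC t)).1
          nlinarith
        have h5 : 0 < 1 - s := by linarith
        rw [Real.norm_eq_abs, abs_le]
        constructor
        · have h7 := Real.log_le_log h5 h3
          have h8 := neg_abs_le (Real.log (1 - s))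
          have h9 := le_max_left |Real.log (1 - s)| (Real.log (1 + C))
          linarith
        · exact (Real.log_le_log (h5.trans_le h3) h4).trans (le_max_right _ _)
      · intro t
        simp only []
        have h3 := strictConcaveOn_log_Ioi.concaveOn.2 (Set.mem_Ioi.2 (zero_lt_one (α := ℝ)))
          (Set.mem_Ioi.2 (hpos t)) (by linarith : 0 ≤ 1 - s) hs0.le (by ring)
        simp only [smul_eq_mul, Real.log_one, mul_zero, zero_add] at h3
        refine h3.trans (le_of_eq ?_)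
        congr 1
        ring
    have h3 : Real.sqrt (s * ‖w‖ * g.im) ≤ Real.sqrt (‖w‖ * g.im) := by
      refine Real.sqrt_le_sqrt ?_
      have := mul_nonneg (norm_nonneg w) hm.le
      nlinarith
    have h4 := mul_le_mul_of_nonneg_left h3 (by positivity : 0 ≤ 2 * h)
    rw [mul_add]
    linarith
  by_contra hcon
  rw [not_le] at hcon
  obtain ⟨D, hD⟩ : ∃ D : ℝ, D = ∫ t, Real.log (1 - (tz h g t * w).im) ∂nu + h * ‖w‖ := ⟨_, rfl⟩
  obtain ⟨c, hc⟩ : ∃ c : ℝ, c = 2 * h * Real.sqrt (‖w‖ * g.im) := ⟨_, rfl⟩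
  have hc0 : 0 ≤ c := by rw [hc]; positivity
  have hcD : c < D := by rw [hc, hD]; linarith
  have hD0 : 0 < D := hc0.trans_lt hcD
  have h1 := key ((c / D + 1) / 2) (by positivity) (by
    have : c / D < 1 := (div_lt_one hD0).2 hcD
    linarith)
  rw [← hD, ← hc] at h1
  have h2 : (c / D + 1) / 2 * D = (c + D) / 2 := by
    field_simp
  linarith

end P365L5
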