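import Vale.Agent.P365.L5.Site

set_option linter.all false

/-!
# P365, LOC-5: the exact discrete slope inequality for `E log Im G_xx`.
-/

namespace P365L5

open MeasureTheory ProbabilityTheory Complex P365L P365F P365L.Poi
open scoped ENNReal NNReal Real ComplexConjugate

variable {ι : Type*} [Fintype ι] [DecidableEq ι] {A : Matrix ι ι ℝ}

/-- `E log Im G_xx` for the noise profile `g` and the absorption profile `e` -/
noncomputable def Phi (A : Matrix ι ι ℝ) (U g e : ι → ℝ) (x : ι) : ℝ :=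
  ∫ c, Real.log (mm A (Wc U g e c) x) ∂(mu ι)

/-- `E |G_xz|²/Im G_xx` -/
noncomputable def RR (A : Matrix ι ι ℝ) (U g e : ι → ℝ) (x z : ι) : ℝ :=
  ∫ c, KK A (Wc U g e c) x z / mm A (Wc U g e c) x ∂(mu ι)

variable {U g e : ι → ℝ}

omit [Fintype ι] [DecidableEq ι] in
theorem measurable_Wc (x : ι) : Measurable fun c : ι → ℝ => Wc U g e c x := by
  unfold Wc
  fun_prop

theorem measurable_Gr_Wc (x y : ι) : Measurable fun c => Gr A (Wc U g e c) x y :=
  measurable_Gr _ (fun x => measurable_Wc x) x y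

theorem measurable_mm_Wc (x : ι) : Measurable fun c => mm A (Wc U g e c) x :=
  Complex.measurable_im.comp (measurable_Gr_Wc x x)

theorem measurable_KK_Wc (x y : ι) : Measurable fun c => KK A (Wc U g e c) x y :=
  ((measurable_Gr_Wc x y).norm).pow_const 2

omit [Fintype ι] [DecidableEq ι] in
theorem Wc_im_le {η : ℝ} (he : ∀ x, η ≤ e x) (c : ι → ℝ) (x : ι) : (Wc U g e c x).im ≤ -η := by
  rw [Wc_im]
  linarith [he x]

theorem integrable_log_mm (hA : A.IsSymm) {η : ℝ} (hη : 0 < η) (he : ∀ x, η ≤ e x) (x : ι) :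
    Integrable (fun c => Real.log (mm A (Wc U g e c) x)) (mu ι) := by
  have hs : 0 ≤ ∑ y, A x y ^ 2 := Finset.sum_nonneg fun y _ => sq_nonneg _
  obtain ⟨D, hD⟩ : ∃ D : ℝ, D = 2 * ∑ y, A x y ^ 2 +
    2 * (2 * (U x ^ 2 + g x ^ 2) + e x ^ 2) := ⟨_, rfl⟩
  have hex : 0 < e x := hη.trans_le (he x)
  have hD0 : 0 < D := by rw [hD]; positivity
  refine integrable_log_of_bounds_mu (measurable_mm_Wc x) (c := η / D) (C := 1 / η)
    (by positivity) x (fun t => ?_) (fun t => mm_upper hA hη (Wc_im_le he t) x)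
  refine le_trans ?_ (mm_lower hA hη (Wc_im_le he t) x)
  have h1 : ‖Wc U g e t x‖ ^ 2 ≤ (2 * (U x ^ 2 + g x ^ 2) + e x ^ 2) * (1 + t x ^ 2) := by
    rw [Complex.sq_norm, normSq_apply, Wc_im]
    have h2 : (Wc U g e t x).re = U x + g x * t x := by
      unfold Wc
      simp
    rw [h2]
    nlinarith [sq_nonneg (U x - g x * t x), sq_nonneg (U x * t x), sq_nonneg (g x),
      sq_nonneg (e x * t x)]
  rw [div_div]
  refine div_le_div_of_nonneg_left hη.le ?_ ?_
  · have h9 : 0 < ‖Wc U g e t x‖ := by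
      rw [norm_pos_iff]
      intro h
      have := Wc_im_le (U := U) (g := g) he t x
      rw [h] at this
      simp at this
      linarith
    positivity
  · rw [hD]
    nlinarith [mul_nonneg hs (sq_nonneg (t x))]

theorem integrable_KK_div (hA : A.IsSymm) {η : ℝ} (hη : 0 < η) (he : ∀ x, η ≤ e x) (x z : ι) :
    Integrable (fun c => KK A (Wc U g e c) x z / mm A (Wc U g e c) x) (mu ι) := by
  refine Integrable.of_bound (C := 1 / η)
    ((measurable_KK_Wc x z).div (measurable_mm_Wc x)).aestronglyMeasurable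
    (Filter.Eventually.of_forall fun c => ?_)
  obtain ⟨h2, h3⟩ := KK_div_mm_le hA hη (Wc_im_le (U := U) (g := g) he c) x z
  rw [Real.norm_of_nonneg h2]
  exact h3

theorem integrable_mm (hA : A.IsSymm) {η : ℝ} (hη : 0 < η) (he : ∀ x, η ≤ e x) (x : ι) :
    Integrable (fun c => mm A (Wc U g e c) x) (mu ι) := by
  refine Integrable.of_bound (C := 1 / η) (measurable_mm_Wc x).aestronglyMeasurable
    (Filter.Eventually.of_forall fun c => ?_)
  rw [Real.norm_of_nonneg (mm_pos hA (fun y => (Wc_im_le he c y).trans_lt (neg_lt_zero.2 hη)) x).le]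
  exact mm_upper hA hη (Wc_im_le he c) x

theorem RR_nonneg (hA : A.IsSymm) {η : ℝ} (hη : 0 < η) (he : ∀ x, η ≤ e x) (x z : ι) :
    0 ≤ RR A U g e x z :=
  integral_nonneg fun c => (KK_div_mm_le hA hη (Wc_im_le he c) x z).1

theorem mean_mm_le (hA : A.IsSymm) {η : ℝ} (hη : 0 < η) (he : ∀ x, η ≤ e x) {z : ι}
    (hg : 0 < g z) : ∫ c, mm A (Wc U g e c) z ∂(mu ι) ≤ 1 / g z := by
  have h := site_le (A := A) (U := U) (g := g) (e := e) hA (fun x => hη.trans_le (he x)) hg
    (Ψ := fun _ => 1) (Ψ' := fun _ => 1) measurable_const (fun _ => zero_le_one) (M := 1)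
    (fun _ => le_refl _) (integrable_const _) (fun _ _ => le_refl _)
  simpa [Gc, mm] using h

/-- Cauchy-Schwarz -/
theorem integral_sqrt_mul_le {Ω : Type*} [MeasurableSpace Ω] {μ : Measure Ω} [IsProbabilityMeasure μ]
    {f k : Ω → ℝ} (hf0 : ∀ ω, 0 ≤ f ω) (hk0 : ∀ ω, 0 ≤ k ω) (hf : Integrable f μ)
    (hk : Integrable k μ) (hmf : Measurable f) (hmk : Measurable k) {a b : ℝ} (ha : ∫ ω, f ω ∂μ ≤ a)
    (hb : ∫ ω, k ω ∂μ ≤ b) (hb0 : 0 < b) :
    Integrable (fun ω => Real.sqrt (f ω * k ω)) μ ∧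
    ∫ ω, Real.sqrt (f ω * k ω) ∂μ ≤ Real.sqrt (a * b) := by
  have ha0 : 0 ≤ a := (integral_nonneg hf0).trans ha
  have hpt : ∀ (ω : Ω) (l : ℝ), 0 < l → Real.sqrt (f ω * k ω) ≤ (l * f ω + l⁻¹ * k ω) / 2 := by
    intro ω l hl
    have h1 : 0 ≤ (l * f ω + l⁻¹ * k ω) / 2 := by
      have := hf0 ω
      have := hk0 ω
      positivity
    rw [← Real.sqrt_sq h1]
    refine Real.sqrt_le_sqrt ?_
    have h2 : ((l * f ω + l⁻¹ * k ω) / 2) ^ 2 - f ω * k ω = ((l * f ω - l⁻¹ * k ω) / 2) ^ 2 := by
      field_simp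
      ring
    nlinarith [sq_nonneg ((l * f ω - l⁻¹ * k ω) / 2)]
  have hi : Integrable (fun ω => Real.sqrt (f ω * k ω)) μ := by
    refine Integrable.mono' (((hf.const_mul 1).add (hk.const_mul (1 : ℝ)⁻¹)).div_const 2) ?_
      (Filter.Eventually.of_forall fun ω => ?_)
    · exact (hmf.mul hmk).sqrt.aestronglyMeasurable
    · rw [Real.norm_of_nonneg (Real.sqrt_nonneg _)]
      exact hpt ω 1 one_pos
  refine ⟨hi, ?_⟩
  have h2 : ∀ l : ℝ, 0 < l → ∫ ω, Real.sqrt (f ω * k ω) ∂μ ≤ (l * a + l⁻¹ * b) / 2 := by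
    intro l hl
    have h3 : ∫ ω, (l * f ω + l⁻¹ * k ω) / 2 ∂μ = (l * ∫ ω, f ω ∂μ + l⁻¹ * ∫ ω, k ω ∂μ) / 2 := by
      rw [integral_div, integral_add (hf.const_mul _) (hk.const_mul _), integral_const_mul,
        integral_const_mul]
    calc ∫ ω, Real.sqrt (f ω * k ω) ∂μ ≤ ∫ ω, (l * f ω + l⁻¹ * k ω) / 2 ∂μ :=
          integral_mono hi (((hf.const_mul _).add (hk.const_mul _)).div_const 2)
            fun ω => hpt ω l hl
      _ = (l * ∫ ω, f ω ∂μ + l⁻¹ * ∫ ω, k ω ∂μ) / 2 := h3
      _ ≤ (l * a + l⁻¹ * b) / 2 := by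
          have h4 := mul_le_mul_of_nonneg_left ha hl.le
          have h5 := mul_le_mul_of_nonneg_left hb (inv_nonneg.2 hl.le)
          linarith
  rcases ha0.eq_or_lt with h0 | h0
  · rw [← h0, zero_mul, Real.sqrt_zero]
    refine le_of_forall_pos_le_add fun ε hε => ?_
    have h3 := h2 (b / (2 * ε)) (by positivity)
    rw [← h0] at h3
    have h4 : (b / (2 * ε) * 0 + (b / (2 * ε))⁻¹ * b) / 2 = ε := by
      field_simp
      ring
    linarith
  · have hs : 0 < Real.sqrt (a * b) := Real.sqrt_pos.2 (mul_pos h0 hb0)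
    have hs2 : Real.sqrt (a * b) ^ 2 = a * b := Real.sq_sqrt (by positivity)
    have h3 := h2 (Real.sqrt (a * b) / a) (by positivity)
    refine h3.trans (le_of_eq ?_)
    rw [inv_div]
    field_simp
    nlinarith

section lower

variable {z : ι} {h : ℝ}

/-- lowering one site: the `log` of the diagonal -/
theorem Phi_lower (hA : A.IsSymm) {η : ℝ} (hη : 0 < η) (he : ∀ x, η ≤ e x) (hg : 0 < g z)
    (hh : 0 < h) (hz : h + η ≤ e z) (x : ι) :
    Phi A U (Function.update g z (g z + h)) (Function.update e z (e z - h)) x ≤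
      Phi A U g e x - h * RR A U g e x z + 2 * h * Real.sqrt (RR A U g e x z * (1 / g z)) := by
  have he' : ∀ y, η ≤ Function.update e z (e z - h) y := by
    intro y
    by_cases hy : y = z
    · subst hy
      rw [Function.update_self]
      linarith
    · rw [Function.update_of_ne hy]
      exact he y
  have hF := integrable_log_mm (A := A) (U := U) (g := Function.update g z (g z + h)) hA hη he' x
  have h1 := integral_lower U g e z hg.le hh (F := fun W => Real.log (mm A W x)) hF
  have h2 := integrable_lower_iff U g e z hg.le hh (F := fun W => Real.log (mm A W x)) hF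
  have hzW : ∀ c : ι → ℝ, h + η ≤ -(Wc U g e c z).im := by
    intro c
    rw [Wc_im, neg_neg]
    exact hz
  have i1 := integrable_log_mm (A := A) (U := U) (g := g) hA hη he x
  have i2 := integrable_KK_div (A := A) (U := U) (g := g) hA hη he x z
  have i3 := integrable_mm (A := A) (U := U) (g := g) hA hη he z
  have hW' : ∀ c y, (Wc U g e c y).im < 0 := fun c y =>
    (Wc_im_le he c y).trans_lt (neg_lt_zero.2 hη)
  obtain ⟨i4, h4⟩ := integral_sqrt_mul_le (μ := mu ι)
    (f := fun c => KK A (Wc U g e c) x z / mm A (Wc U g e c) x)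
    (k := fun c => mm A (Wc U g e c) z)
    (fun c => (KK_div_mm_le hA hη (Wc_im_le he c) x z).1) (fun c => (mm_pos hA (hW' c) z).le)
    i2 i3 ((measurable_KK_Wc x z).div (measurable_mm_Wc x)) (measurable_mm_Wc z) le_rfl
    (mean_mm_le hA hη he hg) (by positivity)
  rw [Phi, h1, Phi, RR]
  have i5 : Integrable (fun c => Real.log (mm A (Wc U g e c) x) -
      h * (KK A (Wc U g e c) x z / mm A (Wc U g e c) x)) (mu ι) := i1.sub (i2.const_mul h)
  have i6 : Integrable (fun c => 2 * h * Real.sqrt (KK A (Wc U g e c) x z / mm A (Wc U g e c) x *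
      mm A (Wc U g e c) z)) (mu ι) := i4.const_mul _
  have h5 : ∫ c, ∫ t, Real.log (mm A (kickW z h (Wc U g e c) t) x) ∂nu ∂(mu ι) ≤
      ∫ c, ((Real.log (mm A (Wc U g e c) x) -
      h * (KK A (Wc U g e c) x z / mm A (Wc U g e c) x)) +
      2 * h * Real.sqrt (KK A (Wc U g e c) x z / mm A (Wc U g e c) x *
      mm A (Wc U g e c) z)) ∂(mu ι) := by
    refine integral_mono h2.integral_prod_left (i5.add i6) fun c => ?_
    exact integral_log_mm_kick_le hA hη (Wc_im_le he c) hh (hzW c) x
  rw [integral_add i5 i6, integral_sub i1 (i2.const_mul h), integral_const_mul,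
    integral_const_mul] at h5
  have h6 := mul_le_mul_of_nonneg_left h4 (by positivity : 0 ≤ 2 * h)
  linarith

/-- lowering one site: monotonicity of `E log` -/
theorem Phi_lower' (hA : A.IsSymm) {η : ℝ} (hη : 0 < η) (he : ∀ x, η ≤ e x) (hg : 0 ≤ g z)
    (hh : 0 < h) (hz : h + η ≤ e z) (x : ι) :
    Phi A U (Function.update g z (g z + h)) (Function.update e z (e z - h)) x ≤
      Phi A U g e x := by
  have he' : ∀ y, η ≤ Function.update e z (e z - h) y := by
    intro y
    by_cases hy : y = z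
    · subst hy
      rw [Function.update_self]
      linarith
    · rw [Function.update_of_ne hy]
      exact he y
  have hF := integrable_log_mm (A := A) (U := U) (g := Function.update g z (g z + h)) hA hη he' x
  have h1 := integral_lower U g e z hg hh (F := fun W => Real.log (mm A W x)) hF
  have h2 := integrable_lower_iff U g e z hg hh (F := fun W => Real.log (mm A W x)) hF
  have hzW : ∀ c : ι → ℝ, h + η ≤ -(Wc U g e c z).im := by
    intro c
    rw [Wc_im, neg_neg]
    exact hz
  rw [Phi, h1, Phi]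
  refine integral_mono h2.integral_prod_left
    (integrable_log_mm (A := A) (U := U) (g := g) hA hη he x) fun c => ?_
  exact integral_log_mm_kick_le' hA hη (Wc_im_le he c) hh (hzW c) x

/-- lowering one site: monotonicity of `E |G_xy|²/Im G_xx` -/
theorem RR_lower (hA : A.IsSymm) {η : ℝ} (hη : 0 < η) (he : ∀ x, η ≤ e x) (hg : 0 ≤ g z)
    (hh : 0 < h) (hz : h + η ≤ e z) (x y : ι) :
    RR A U g e x y ≤
      RR A U (Function.update g z (g z + h)) (Function.update e z (e z - h)) x y := by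
  have he' : ∀ y, η ≤ Function.update e z (e z - h) y := by
    intro y
    by_cases hy : y = z
    · subst hy
      rw [Function.update_self]
      linarith
    · rw [Function.update_of_ne hy]
      exact he y
  have hF := integrable_KK_div (A := A) (U := U) (g := Function.update g z (g z + h)) hA hη he' x y
  have h1 := integral_lower U g e z hg hh (F := fun W => KK A W x y / mm A W x) hF
  have h2 := integrable_lower_iff U g e z hg hh (F := fun W => KK A W x y / mm A W x) hF
  have hzW : ∀ c : ι → ℝ, h + η ≤ -(Wc U g e c z).im := by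
    intro c
    rw [Wc_im, neg_neg]
    exact hz
  have h3 : RR A U (Function.update g z (g z + h)) (Function.update e z (e z - h)) x y =
      ∫ c, ∫ t, KK A (kickW z h (Wc U g e c) t) x y / mm A (kickW z h (Wc U g e c) t) x
        ∂nu ∂(mu ι) := h1
  rw [h3, RR]
  refine integral_mono (integrable_KK_div (A := A) (U := U) (g := g) hA hη he x y)
    h2.integral_prod_left fun c => ?_
  exact integral_KK_div_kick_ge hA hη (Wc_im_le he c) hh (hzW c) x y

end lower

/-! ### the path from the homogeneous profile `ε` to the homogeneous profile `ε'` -/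

/-- absorption `ε'` on `S`, `ε` off `S` -/
noncomputable def eS (ε ε' : ℝ) (S : Finset ι) (y : ι) : ℝ := if y ∈ S then ε' else ε

/-- noise -/
noncomputable def gS (γ ε ε' : ℝ) (S : Finset ι) (y : ι) : ℝ := γ - eS ε ε' S y

theorem eS_insert {ε ε' : ℝ} {S : Finset ι} {z : ι} (hz : z ∉ S) :
    Function.update (eS ε ε' S) z (eS ε ε' S z - (ε - ε')) = eS ε ε' (insert z S) := by
  funext y
  by_cases hy : y = z
  · subst hy
    rw [Function.update_self, eS, eS, if_neg hz, if_pos (Finset.mem_insert_self _ _)]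
    ring
  · rw [Function.update_of_ne hy, eS, eS]
    simp [hy]

theorem gS_insert {γ ε ε' : ℝ} {S : Finset ι} {z : ι} (hz : z ∉ S) :
    Function.update (gS γ ε ε' S) z (gS γ ε ε' S z + (ε - ε')) = gS γ ε ε' (insert z S) := by
  funext y
  by_cases hy : y = z
  · subst hy
    rw [Function.update_self, gS, gS, eS, eS, if_neg hz, if_pos (Finset.mem_insert_self _ _)]
    ring
  · rw [Function.update_of_ne hy, gS, gS, eS, eS]
    simp [hy]

section path

variable {γ ε ε' : ℝ}

theorem eS_ge (h1 : ε' < ε) (S : Finset ι) (y : ι) : ε' ≤ eS ε ε' S y := by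
  unfold eS
  split_ifs
  · exact le_rfl
  · exact h1.le

theorem gS_pos (h1 : ε' < ε) (h2 : ε < γ) (S : Finset ι) (y : ι) : 0 < gS γ ε ε' S y := by
  unfold gS eS
  split_ifs <;> linarith

theorem RR_mono (hA : A.IsSymm) (h0 : 0 < ε') (h1 : ε' < ε) (h2 : ε < γ) (S T : Finset ι)
    (x y : ι) : RR A U (gS γ ε ε' S) (eS ε ε' S) x y ≤
      RR A U (gS γ ε ε' (S ∪ T)) (eS ε ε' (S ∪ T)) x y := by
  induction T using Finset.induction_on with
  | empty => rw [Finset.union_empty]
  | insert z T hz ih =>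
    refine ih.trans ?_
    rw [Finset.union_insert]
    by_cases hzS : z ∈ S ∪ T
    · rw [Finset.insert_eq_of_mem hzS]
    · rw [← eS_insert hzS, ← gS_insert hzS]
      refine RR_lower hA h0 (eS_ge h1 _) (gS_pos h1 h2 _ _).le (by linarith) ?_ x y
      rw [eS, if_neg hzS]
      linarith

theorem Phi_path (hA : A.IsSymm) (h0 : 0 < ε') (h1 : ε' < ε) (h2 : ε < γ) (B S : Finset ι)
    (x : ι) : Phi A U (gS γ ε ε' S) (eS ε ε' S) x ≤ Phi A U (gS γ ε ε' ∅) (eS ε ε' ∅) x -
      (ε - ε') * ∑ z ∈ S ∩ B, RR A U (gS γ ε ε' ∅) (eS ε ε' ∅) x z +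
      2 * (ε - ε') * ∑ z ∈ S ∩ B, Real.sqrt
        (RR A U (gS γ ε ε' Finset.univ) (eS ε ε' Finset.univ) x z * (1 / (γ - ε))) := by
  have hh : 0 < ε - ε' := by linarith
  induction S using Finset.induction_on with
  | empty => simp
  | insert z S hz ih =>
    have hez : ε - ε' + ε' ≤ eS ε ε' S z := by
      rw [eS, if_neg hz]
      linarith
    rw [← eS_insert hz, ← gS_insert hz]
    by_cases hzB : z ∈ B
    · have h3 := Phi_lower (A := A) (U := U) hA h0 (eS_ge h1 S) (gS_pos h1 h2 S z) hh hez x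
      have h4 := RR_mono (U := U) hA h0 h1 h2 ∅ S x z
      rw [Finset.empty_union] at h4
      have h5 := RR_mono (U := U) hA h0 h1 h2 S Finset.univ x z
      have hSu : S ∪ (Finset.univ : Finset ι) = Finset.univ := by
        ext y
        simp
      rw [hSu] at h5
      have hgz : gS γ ε ε' S z = γ - ε := by rw [gS, eS, if_neg hz]
      have h6 : Real.sqrt (RR A U (gS γ ε ε' S) (eS ε ε' S) x z * (1 / gS γ ε ε' S z)) ≤
          Real.sqrt (RR A U (gS γ ε ε' Finset.univ) (eS ε ε' Finset.univ) x z *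
            (1 / (γ - ε))) := by
        rw [hgz]
        refine Real.sqrt_le_sqrt (mul_le_mul_of_nonneg_right h5 ?_)
        have : 0 < γ - ε := by linarith
        positivity
      have h7 : insert z S ∩ B = insert z (S ∩ B) := Finset.insert_inter_of_mem hzB
      have h8 : z ∉ S ∩ B := fun h => hz (Finset.mem_inter.1 h).1
      rw [h7, Finset.sum_insert h8, Finset.sum_insert h8]
      have h9 := mul_le_mul_of_nonneg_left h4 hh.le
      have h10 := mul_le_mul_of_nonneg_left h6 (by positivity : 0 ≤ 2 * (ε - ε'))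
      rw [mul_add, mul_add]
      linarith
    · have h3 := Phi_lower' (A := A) (U := U) hA h0 (eS_ge h1 S) (gS_pos h1 h2 S z).le hh hez x
      have h7 : insert z S ∩ B = S ∩ B := Finset.insert_inter_of_notMem hzB
      rw [h7]
      exact h3.trans ih

/-- **SLOPE**: the exact discrete slope inequality -/
theorem slope (hA : A.IsSymm) (U : ι → ℝ) (h0 : 0 < ε') (h1 : ε' < ε) (h2 : ε < γ)
    (B : Finset ι) (x : ι) :
    Phi A U (fun _ => γ - ε') (fun _ => ε') x ≤ Phi A U (fun _ => γ - ε) (fun _ => ε) x -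
      (ε - ε') / ε * ∫ c, (∑ z ∈ B, PP A (Wc U (fun _ => γ - ε) (fun _ => ε) c) x z) ∂(mu ι) +
      2 * (ε - ε') * Real.sqrt (B.card / (ε' * (γ - ε))) := by
  have hh : 0 < ε - ε' := by linarith
  have hε : 0 < ε := by linarith
  have hγε : 0 < γ - ε := by linarith
  have e1 : eS ε ε' (Finset.univ : Finset ι) = fun _ => ε' := by
    funext y
    simp [eS]
  have e2 : gS γ ε ε' (Finset.univ : Finset ι) = fun _ => γ - ε' := by
    funext y
    simp [gS, eS]
  have e3 : eS ε ε' (∅ : Finset ι) = fun _ => ε := by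
    funext y
    simp [eS]
  have e4 : gS γ ε ε' (∅ : Finset ι) = fun _ => γ - ε := by
    funext y
    simp [gS, eS]
  have h3 := Phi_path (A := A) (U := U) hA h0 h1 h2 B Finset.univ x
  rw [e1, e2, e3, e4, Finset.univ_inter] at h3
  -- the linear term
  have h4 : (ε - ε') * ∑ z ∈ B, RR A U (fun _ => γ - ε) (fun _ => ε) x z =
      (ε - ε') / ε *
        ∫ c, (∑ z ∈ B, PP A (Wc U (fun _ => γ - ε) (fun _ => ε) c) x z) ∂(mu ι) := by
    have h5 : ∀ c : ι → ℝ, ∑ z ∈ B, PP A (Wc U (fun _ => γ - ε) (fun _ => ε) c) x z =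
        ∑ z ∈ B, ε * (KK A (Wc U (fun _ => γ - ε) (fun _ => ε) c) x z /
          mm A (Wc U (fun _ => γ - ε) (fun _ => ε) c) x) := by
      intro c
      refine Finset.sum_congr rfl fun z _ => ?_
      rw [PP, Wc_im, neg_neg]
      ring
    simp only [h5]
    rw [integral_finset_sum B (fun z _ =>
      (integrable_KK_div (A := A) (U := U) (g := fun _ => γ - ε) (e := fun _ => ε) hA hε
        (fun _ => le_rfl) x z).const_mul ε)]
    simp only [integral_const_mul]
    rw [← Finset.mul_sum]
    unfold RR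
    field_simp
  -- the square root term
  have h6 : ∑ z ∈ B, Real.sqrt (RR A U (fun _ => γ - ε') (fun _ => ε') x z * (1 / (γ - ε))) ≤
      Real.sqrt (B.card / (ε' * (γ - ε))) := by
    have h7 : ∀ z, 0 ≤ RR A U (fun _ => γ - ε') (fun _ => ε') x z := fun z =>
      RR_nonneg hA h0 (fun _ => le_rfl) x z
    have h8 : ∑ z, RR A U (fun _ => γ - ε') (fun _ => ε') x z = 1 / ε' := by
      unfold RR
      rw [← integral_finset_sum _ (fun z _ => integrable_KK_div (A := A) (U := U)
        (g := fun _ => γ - ε') (e := fun _ => ε') hA h0 (fun _ => le_rfl) x z)]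
      have h9 : ∀ c : ι → ℝ, ∑ z, KK A (Wc U (fun _ => γ - ε') (fun _ => ε') c) x z /
          mm A (Wc U (fun _ => γ - ε') (fun _ => ε') c) x = 1 / ε' := by
        intro c
        have h10 := PP_sum (W := Wc U (fun _ => γ - ε') (fun _ => ε') c) hA
          (fun y => (Wc_im_le (η := ε') (fun _ => le_rfl) c y).trans_lt (neg_lt_zero.2 h0)) x
        have h11 : ∀ z, PP A (Wc U (fun _ => γ - ε') (fun _ => ε') c) x z =
            ε' * (KK A (Wc U (fun _ => γ - ε') (fun _ => ε') c) x z /
              mm A (Wc U (fun _ => γ - ε') (fun _ => ε') c) x) := by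
          intro z
          rw [PP, Wc_im, neg_neg]
          ring
        simp only [h11] at h10
        rw [← Finset.mul_sum] at h10
        rw [eq_div_iff h0.ne', mul_comm]
        exact h10
      simp only [h9]
      rw [integral_const, probReal_univ, one_smul]
    have h9 : (∑ z ∈ B, Real.sqrt (RR A U (fun _ => γ - ε') (fun _ => ε') x z *
        (1 / (γ - ε)))) ^ 2 ≤ B.card / (ε' * (γ - ε)) := by
      have h10 := sq_sum_le_card_mul_sum_sq (s := B)
        (f := fun z => Real.sqrt (RR A U (fun _ => γ - ε') (fun _ => ε') x z * (1 / (γ - ε))))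
      refine h10.trans ?_
      have h11 : ∀ z ∈ B, Real.sqrt (RR A U (fun _ => γ - ε') (fun _ => ε') x z *
          (1 / (γ - ε))) ^ 2 = RR A U (fun _ => γ - ε') (fun _ => ε') x z * (1 / (γ - ε)) := by
        intro z _
        exact Real.sq_sqrt (mul_nonneg (h7 z) (by positivity))
      rw [Finset.sum_congr rfl h11, ← Finset.sum_mul]
      have h12 : ∑ z ∈ B, RR A U (fun _ => γ - ε') (fun _ => ε') x z ≤ 1 / ε' := by
        rw [← h8]
        exact Finset.sum_le_sum_of_subset_of_nonneg (Finset.subset_univ B) fun z _ _ => h7 z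
      calc (B.card : ℝ) * ((∑ z ∈ B, RR A U (fun _ => γ - ε') (fun _ => ε') x z) * (1 / (γ - ε)))
          ≤ (B.card : ℝ) * ((1 / ε') * (1 / (γ - ε))) := by
            refine mul_le_mul_of_nonneg_left (mul_le_mul_of_nonneg_right h12 (by positivity))
              (Nat.cast_nonneg _)
        _ = B.card / (ε' * (γ - ε)) := by
            field_simp
    exact Real.le_sqrt_of_sq_le h9
  have h7 := mul_le_mul_of_nonneg_left h6 (by positivity : 0 ≤ 2 * (ε - ε'))
  rw [h4] at h3
  linarith

end path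

end P365L5
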