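import Vale.Agent.P365.L5.Kick1
import Vale.Agent.P365.L1.Alg2
import Vale.Agent.P365.Flow.Kick

set_option linter.all false

/-!
# P365, LOC-5: one-site estimates for `log Im G_xx` and for `|G_xz|²/Im G_xx`.
-/

namespace P365L5

open MeasureTheory ProbabilityTheory Complex P365L P365F
open scoped ENNReal NNReal Real ComplexConjugate

variable {ι : Type*} [Fintype ι] [DecidableEq ι] {A : Matrix ι ι ℝ} {W : ι → ℂ}

/-! ### integrability of logarithms -/

theorem integrable_log_one_add_sq : Integrable (fun t : ℝ => Real.log (1 + t ^ 2)) nu := by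
  have h1 : nu = volume.withDensity (cauchyPDF 0 1) :=
    cauchyMeasure_of_scale_ne_zero 0 one_ne_zero
  rw [h1, integrable_withDensity_iff_integrable_smul' (measurable_cauchyPDF 0 1)
    (Filter.Eventually.of_forall fun x => ENNReal.ofReal_lt_top)]
  have h2 : Integrable (fun t : ℝ => (4 * π⁻¹) * (1 + ‖t‖ ^ 2) ^ (-(3 / 2 : ℝ) / 2)) := by
    refine (integrable_rpow_neg_one_add_norm_sq (μ := (volume : Measure ℝ)) (E := ℝ) (r := 3 / 2)
      ?_).const_mul _
    simp
    norm_num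
  refine Integrable.mono' h2 ?_ (Filter.Eventually.of_forall fun t => ?_)
  · refine Measurable.aestronglyMeasurable ?_
    exact ((measurable_cauchyPDF 0 1).ennreal_toReal).smul (by fun_prop)
  · have ht : (1 : ℝ) ≤ 1 + t ^ 2 := by nlinarith [sq_nonneg t]
    have ht0 : (0 : ℝ) < 1 + t ^ 2 := by linarith
    have hlog : 0 ≤ Real.log (1 + t ^ 2) := Real.log_nonneg ht
    rw [norm_smul, Real.norm_of_nonneg ENNReal.toReal_nonneg, Real.norm_of_nonneg hlog, cauchyPDF,
      ENNReal.toReal_ofReal (cauchyPDF_pos 0 one_ne_zero t).le, cauchyPDFReal_def]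
    simp only [NNReal.coe_one, mul_one, sub_zero, one_pow, Real.norm_eq_abs, sq_abs]
    have h3 := Real.log_le_rpow_div ht0.le (by norm_num : (0 : ℝ) < 1 / 4)
    have h4 : (1 + t ^ 2 : ℝ) ^ (-(3 / 2 : ℝ) / 2) = (1 + t ^ 2) ^ (1 / 4 : ℝ) * (t ^ 2 + 1)⁻¹ := by
      rw [add_comm (t ^ 2) 1, ← Real.rpow_neg_one (1 + t ^ 2), ← Real.rpow_add ht0]
      norm_num
    rw [h4]
    have h5 : (0 : ℝ) ≤ (t ^ 2 + 1)⁻¹ := by positivity
    have h6 := mul_le_mul_of_nonneg_left h3 (by positivity : (0 : ℝ) ≤ π⁻¹ * (t ^ 2 + 1)⁻¹)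
    refine h6.trans (le_of_eq ?_)
    ring

theorem abs_log_le {y c C s : ℝ} (hc : 0 < c) (hy : c / (1 + s ^ 2) ≤ y) (hyC : y ≤ C) :
    |Real.log y| ≤ |Real.log c| + |Real.log C| + Real.log (1 + s ^ 2) := by
  have ht0 : (0 : ℝ) < 1 + s ^ 2 := by positivity
  have hlog : 0 ≤ Real.log (1 + s ^ 2) := Real.log_nonneg (by nlinarith [sq_nonneg s])
  have h1 : 0 < c / (1 + s ^ 2) := by positivity
  have h2 := Real.log_le_log h1 hy
  rw [Real.log_div hc.ne' ht0.ne'] at h2
  have h3 := Real.log_le_log (h1.trans_le hy) hyC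
  rw [abs_le]
  constructor
  · linarith [neg_abs_le (Real.log c), abs_nonneg (Real.log C)]
  · linarith [le_abs_self (Real.log C), abs_nonneg (Real.log c)]

theorem integrable_log_of_bounds {f : ℝ → ℝ} (hf : Measurable f) {c C : ℝ} (hc : 0 < c)
    (h1 : ∀ t, c / (1 + t ^ 2) ≤ f t) (h2 : ∀ t, f t ≤ C) :
    Integrable (fun t => Real.log (f t)) nu := by
  refine Integrable.mono' ((integrable_const (|Real.log c| + |Real.log C|)).add
    integrable_log_one_add_sq) hf.log.aestronglyMeasurable (Filter.Eventually.of_forall fun t => ?_)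
  rw [Real.norm_eq_abs]
  exact abs_log_le hc (h1 t) (h2 t)

theorem integrable_log_of_bounds_mu {f : (ι → ℝ) → ℝ} (hf : Measurable f) {c C : ℝ} (hc : 0 < c)
    (x : ι) (h1 : ∀ t, c / (1 + t x ^ 2) ≤ f t) (h2 : ∀ t, f t ≤ C) :
    Integrable (fun t => Real.log (f t)) (mu ι) := by
  have hev : Integrable (fun t : ι → ℝ => Real.log (1 + t x ^ 2)) (mu ι) :=
    (measurePreserving_eval (fun _ : ι => nu) x).integrable_comp_of_integrable
      integrable_log_one_add_sq
  refine Integrable.mono' ((integrable_const (|Real.log c| + |Real.log C|)).add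
    hev) hf.log.aestronglyMeasurable (Filter.Eventually.of_forall fun t => ?_)
  rw [Real.norm_eq_abs]
  exact abs_log_le hc (h1 t) (h2 t)

/-! ### lower bound for the diagonal -/

theorem mm_lower (hA : A.IsSymm) {η : ℝ} (hη : 0 < η) (hW : ∀ x, (W x).im ≤ -η) (x : ι) :
    η / (2 * ∑ y, A x y ^ 2 + 2 * ‖W x‖ ^ 2) ≤ mm A W x := by
  have hW' : ∀ x, (W x).im < 0 := fun x => (hW x).trans_lt (neg_lt_zero.2 hη)
  have h1 := Kmat_mulVec_Gr hA hW' x x
  rw [if_pos rfl] at h1
  have h2 : (1 : ℝ) ≤ ∑ y, ‖Kmat A W x y‖ * ‖Gr A W y x‖ := by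
    have h3 : ‖(Kmat A W).mulVec (fun z => Gr A W z x) x‖ = 1 := by rw [h1, norm_one]
    rw [← h3, Matrix.mulVec, dotProduct]
    refine (norm_sum_le _ _).trans (le_of_eq ?_)
    exact Finset.sum_congr rfl fun y _ => norm_mul _ _
  have h3 := Finset.sum_mul_sq_le_sq_mul_sq Finset.univ (fun y => ‖Kmat A W x y‖)
    (fun y => ‖Gr A W y x‖)
  have h4 : (1 : ℝ) ≤ (∑ y, ‖Kmat A W x y‖ ^ 2) * ∑ y, ‖Gr A W y x‖ ^ 2 := by
    refine le_trans ?_ h3
    have := pow_le_pow_left₀ zero_le_one h2 2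
    rwa [one_pow] at this
  have h5 : ∑ y, ‖Kmat A W x y‖ ^ 2 ≤ 2 * ∑ y, A x y ^ 2 + 2 * ‖W x‖ ^ 2 := by
    have h6 : ∀ y, ‖Kmat A W x y‖ ^ 2 ≤ 2 * A x y ^ 2 + 2 * (if y = x then ‖W x‖ ^ 2 else 0) := by
      intro y
      rw [Kmat, Matrix.add_apply, Matrix.map_apply, Matrix.diagonal_apply]
      by_cases hy : y = x
      · subst hy
        rw [if_pos rfl, if_pos rfl]
        have h7 := norm_add_le ((A y y : ℂ)) (W y)
        rw [Complex.norm_real, Real.norm_eq_abs] at h7
        have h8 := pow_le_pow_left₀ (norm_nonneg _) h7 2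
        have h9 := sq_abs (A y y)
        nlinarith [sq_nonneg (|A y y| - ‖W y‖)]
      · rw [if_neg (Ne.symm hy), if_neg hy, add_zero, Complex.norm_real, Real.norm_eq_abs, sq_abs]
        nlinarith [sq_nonneg (A x y)]
    refine (Finset.sum_le_sum fun y _ => h6 y).trans (le_of_eq ?_)
    rw [Finset.sum_add_distrib, ← Finset.mul_sum, ← Finset.mul_sum, Finset.sum_ite_eq']
    simp
  have h6 : η * ∑ y, ‖Gr A W y x‖ ^ 2 ≤ mm A W x := by
    rw [mm, Gr_flux hA hW', Finset.mul_sum]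
    exact Finset.sum_le_sum fun y _ =>
      mul_le_mul_of_nonneg_right (by linarith [hW y]) (sq_nonneg _)
  have h7 : 0 < 2 * ∑ y, A x y ^ 2 + 2 * ‖W x‖ ^ 2 := by
    have h8 : 0 ≤ ∑ y, A x y ^ 2 := Finset.sum_nonneg fun y _ => sq_nonneg _
    have h9 : 0 < ‖W x‖ := by
      rw [norm_pos_iff]
      intro h
      have := hW' x
      rw [h] at this
      simp at this
    positivity
  rw [div_le_iff₀ h7]
  have h8 : 0 ≤ ∑ y, ‖Gr A W y x‖ ^ 2 := Finset.sum_nonneg fun y _ => sq_nonneg _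
  calc η = η * 1 := (mul_one _).symm
    _ ≤ η * ((∑ y, ‖Kmat A W x y‖ ^ 2) * ∑ y, ‖Gr A W y x‖ ^ 2) :=
        mul_le_mul_of_nonneg_left h4 hη.le
    _ ≤ η * ((2 * ∑ y, A x y ^ 2 + 2 * ‖W x‖ ^ 2) * ∑ y, ‖Gr A W y x‖ ^ 2) :=
        mul_le_mul_of_nonneg_left (mul_le_mul_of_nonneg_right h5 h8) hη.le
    _ = (η * ∑ y, ‖Gr A W y x‖ ^ 2) * (2 * ∑ y, A x y ^ 2 + 2 * ‖W x‖ ^ 2) := by ring
    _ ≤ mm A W x * (2 * ∑ y, A x y ^ 2 + 2 * ‖W x‖ ^ 2) :=
        mul_le_mul_of_nonneg_right h6 h7.le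

theorem mm_upper (hA : A.IsSymm) {η : ℝ} (hη : 0 < η) (hW : ∀ x, (W x).im ≤ -η) (x : ι) :
    mm A W x ≤ 1 / η :=
  ((le_abs_self _).trans (Complex.abs_im_le_norm _)).trans (norm_Gr_le hA hη hW x x)

/-! ### the kick -/

section kick

variable {z : ι} {h : ℝ}

theorem kickW_im (t : ℝ) : ((W z + h * ((t : ℂ) + I))).im = (W z).im + h := by
  simp

theorem kickW_neg (hW : ∀ x, (W x).im < 0) (hz : h < -(W z).im) (t : ℝ) (x : ι) :
    (kickW z h W t x).im < 0 :=
  upd_neg hW z _ (by rw [kickW_im]; linarith) x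

theorem g_cond (hA : A.IsSymm) (hW : ∀ x, (W x).im < 0) (hz : h < -(W z).im) :
    h * ‖Gr A W z z‖ ^ 2 < (Gr A W z z).im := by
  have h1 := e_mul_KK_le hA hW z z
  have h2 : 0 < ‖Gr A W z z‖ ^ 2 := pow_pos (norm_pos_iff.2 (Gr_self_ne_zero hA hW z)) 2
  have h3 : h * ‖Gr A W z z‖ ^ 2 < (-(W z).im) * ‖Gr A W z z‖ ^ 2 :=
    mul_lt_mul_of_pos_right hz h2
  exact h3.trans_le h1

theorem th_eq_tz (g : ℂ) (t : ℝ) : th g (h * ((t : ℂ) + I)) = tz h g t := rfl

theorem Gr_kick (hA : A.IsSymm) (hW : ∀ x, (W x).im < 0) (hz : h < -(W z).im) (t : ℝ) (x y : ι) :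
    Gr A (kickW z h W t) x y =
      Gr A W x y - tz h (Gr A W z z) t * Gr A W x z * Gr A W z y := by
  rw [← th_eq_tz]
  exact Gr_upd hA hW z _ (by rw [kickW_im]; linarith) x y

theorem mm_kick (hA : A.IsSymm) (hW : ∀ x, (W x).im < 0) (hz : h < -(W z).im) (t : ℝ) (x : ι) :
    mm A (kickW z h W t) x = mm A W x - (tz h (Gr A W z z) t * Gr A W x z ^ 2).im := by
  rw [← th_eq_tz]
  exact mm_upd hA hW z _ (by rw [kickW_im]; linarith) x

theorem measurable_mm_kick (hA : A.IsSymm) (hW : ∀ x, (W x).im < 0) (hz : h < -(W z).im) (x : ι) :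
    Measurable fun t => mm A (kickW z h W t) x := by
  simp only [mm_kick hA hW hz]
  have := measurable_tz h (Gr A W z z)
  fun_prop

theorem integral_mm_kick (hA : A.IsSymm) (hW : ∀ x, (W x).im < 0) (hh : 0 < h)
    (hz : h < -(W z).im) (x : ι) :
    Integrable (fun t => mm A (kickW z h W t) x) nu ∧
      ∫ t, mm A (kickW z h W t) x ∂nu = mm A W x := by
  have hg := g_cond hA hW hz
  have h1 : Integrable (fun t => tz h (Gr A W z z) t * Gr A W x z ^ 2) nu :=
    (integrable_tz hh hg).mul_const _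
  have h2 : Integrable (fun t => (tz h (Gr A W z z) t * Gr A W x z ^ 2).im) nu := h1.im
  simp only [mm_kick hA hW hz]
  refine ⟨(integrable_const _).sub h2, ?_⟩
  have h3 : ∫ t, (tz h (Gr A W z z) t * Gr A W x z ^ 2).im ∂nu =
      (∫ t, tz h (Gr A W z z) t * Gr A W x z ^ 2 ∂nu).im := integral_im h1
  rw [integral_sub (integrable_const _) h2, h3, integral_mul_const, integral_tz hh hg, zero_mul,
    Complex.zero_im, sub_zero, integral_const, probReal_univ, one_smul]

theorem norm_kickW_sq_le (x : ι) (t : ℝ) (hh : 0 < h) :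
    ‖kickW z h W t x‖ ^ 2 ≤ (2 * ‖W x‖ ^ 2 + 2 * h ^ 2) * (1 + t ^ 2) := by
  have h0 : ‖(t : ℂ) + I‖ ^ 2 = 1 + t ^ 2 := by
    rw [Complex.sq_norm, normSq_apply]
    simp
    ring
  unfold kickW
  by_cases hx : x = z
  · subst hx
    rw [Function.update_self]
    have h1 := norm_add_le (W x) ((h : ℂ) * ((t : ℂ) + I))
    have h2 := pow_le_pow_left₀ (norm_nonneg _) h1 2
    have h3 : ‖(h : ℂ) * ((t : ℂ) + I)‖ ^ 2 = h ^ 2 * (1 + t ^ 2) := by
      rw [norm_mul, mul_pow, h0, Complex.norm_real, Real.norm_of_nonneg hh.le]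
    nlinarith [sq_nonneg (‖W x‖ - ‖(h : ℂ) * ((t : ℂ) + I)‖), sq_nonneg t, sq_nonneg (‖W x‖ * t)]
  · rw [Function.update_of_ne hx]
    nlinarith [sq_nonneg (‖W x‖ * t), sq_nonneg (h * t), sq_nonneg h, sq_nonneg ‖W x‖]

theorem integrable_log_mm_kick (hA : A.IsSymm) {η : ℝ} (hη : 0 < η) (hW : ∀ x, (W x).im ≤ -η)
    (hh : 0 < h) (hz : h + η ≤ -(W z).im) (x : ι) :
    Integrable (fun t => Real.log (mm A (kickW z h W t) x)) nu := by
  have hW' : ∀ x, (W x).im < 0 := fun x => (hW x).trans_lt (neg_lt_zero.2 hη)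
  have hz' : h < -(W z).im := by linarith
  have hk : ∀ t y, (kickW z h W t y).im ≤ -η := by
    intro t y
    unfold kickW
    by_cases hy : y = z
    · subst hy
      rw [Function.update_self, kickW_im]
      linarith
    · rw [Function.update_of_ne hy]
      exact hW y
  have hs : 0 ≤ ∑ y, A x y ^ 2 := Finset.sum_nonneg fun y _ => sq_nonneg _
  have hD : 0 < 2 * ∑ y, A x y ^ 2 + 2 * (2 * ‖W x‖ ^ 2 + 2 * h ^ 2) := by positivity
  refine integrable_log_of_bounds (measurable_mm_kick hA hW' hz' x)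
    (c := η / (2 * ∑ y, A x y ^ 2 + 2 * (2 * ‖W x‖ ^ 2 + 2 * h ^ 2))) (C := 1 / η)
    (by positivity) (fun t => ?_) (fun t => mm_upper hA hη (hk t) x)
  refine le_trans ?_ (mm_lower hA hη (hk t) x)
  have h1 := norm_kickW_sq_le (W := W) (z := z) x t hh
  rw [div_div]
  refine div_le_div_of_nonneg_left hη.le ?_ ?_
  · have h9 : 0 < ‖kickW z h W t x‖ := by
      rw [norm_pos_iff]
      intro h
      have := hk t x
      rw [h] at this
      simp at this
      linarith
    positivity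
  · nlinarith [mul_nonneg hs (sq_nonneg t)]

/-- **one-site estimate (a)** -/
theorem integral_log_mm_kick_le (hA : A.IsSymm) {η : ℝ} (hη : 0 < η) (hW : ∀ x, (W x).im ≤ -η)
    (hh : 0 < h) (hz : h + η ≤ -(W z).im) (x : ι) :
    ∫ t, Real.log (mm A (kickW z h W t) x) ∂nu ≤
      Real.log (mm A W x) - h * (KK A W x z / mm A W x) +
        2 * h * Real.sqrt (KK A W x z / mm A W x * mm A W z) := by
  have hW' : ∀ x, (W x).im < 0 := fun x => (hW x).trans_lt (neg_lt_zero.2 hη)
  have hz' : h < -(W z).im := by linarith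
  have hg := g_cond hA hW' hz'
  have hm := mm_pos hA hW' x
  obtain ⟨w, hw⟩ : ∃ w : ℂ, w = Gr A W x z ^ 2 / (mm A W x : ℂ) := ⟨_, rfl⟩
  have hwn : ‖w‖ = KK A W x z / mm A W x := by
    rw [hw, norm_div, norm_pow, Complex.norm_real, Real.norm_of_nonneg hm.le, KK]
  have h1 : ∀ t, mm A (kickW z h W t) x = mm A W x * (1 - (tz h (Gr A W z z) t * w).im) := by
    intro t
    rw [mm_kick hA hW' hz']
    have h2 : tz h (Gr A W z z) t * w =
        (tz h (Gr A W z z) t * Gr A W x z ^ 2) / (mm A W x : ℂ) := by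
      rw [hw]
      ring
    rw [h2, Complex.div_ofReal_im]
    field_simp
  have hpos : ∀ t, 0 < 1 - (tz h (Gr A W z z) t * w).im := by
    intro t
    have h2 := mm_pos hA (kickW_neg hW' hz' t) x
    rw [h1] at h2
    exact pos_of_mul_pos_right h2 hm.le
  have h2 : ∀ t, Real.log (mm A (kickW z h W t) x) =
      Real.log (mm A W x) + Real.log (1 - (tz h (Gr A W z z) t * w).im) := by
    intro t
    rw [h1, Real.log_mul hm.ne' (hpos t).ne']
  have hi := integrable_log_mm_kick hA hη hW hh hz x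
  have hi2 : Integrable (fun t => Real.log (1 - (tz h (Gr A W z z) t * w).im)) nu := by
    have := hi.sub (integrable_const (Real.log (mm A W x)))
    refine this.congr (Filter.Eventually.of_forall fun t => ?_)
    simp only [Pi.sub_apply, h2]
    ring
  simp only [h2]
  rw [integral_add (integrable_const _) hi2, integral_const, probReal_univ, one_smul]
  have h3 := log_tz_le hh hg hpos hi2
  rw [hwn] at h3
  have h4 : (Gr A W z z).im = mm A W z := rfl
  rw [h4] at h3
  linarith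

/-- **one-site estimate, Jensen** -/
theorem integral_log_mm_kick_le' (hA : A.IsSymm) {η : ℝ} (hη : 0 < η) (hW : ∀ x, (W x).im ≤ -η)
    (hh : 0 < h) (hz : h + η ≤ -(W z).im) (x : ι) :
    ∫ t, Real.log (mm A (kickW z h W t) x) ∂nu ≤ Real.log (mm A W x) := by
  have hW' : ∀ x, (W x).im < 0 := fun x => (hW x).trans_lt (neg_lt_zero.2 hη)
  have hz' : h < -(W z).im := by linarith
  have hm := mm_pos hA hW' x
  obtain ⟨hi1, he1⟩ := integral_mm_kick hA hW' hh hz' x
  have hi2 : Integrable (fun t => mm A (kickW z h W t) x / mm A W x) nu := hi1.div_const _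
  have hi3 : Integrable (fun t => mm A (kickW z h W t) x / mm A W x - 1) nu :=
    hi2.sub (integrable_const _)
  have hi4 : Integrable (fun t => Real.log (mm A W x) +
      (mm A (kickW z h W t) x / mm A W x - 1)) nu := (integrable_const _).add hi3
  have h1 : ∫ t, (Real.log (mm A W x) + (mm A (kickW z h W t) x / mm A W x - 1)) ∂nu =
      Real.log (mm A W x) := by
    rw [integral_add (integrable_const _) hi3,
      integral_sub hi2 (integrable_const _), integral_div, he1, div_self hm.ne']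
    simp
  rw [← h1]
  refine integral_mono (integrable_log_mm_kick hA hη hW hh hz x) hi4 fun t => ?_
  show Real.log (mm A (kickW z h W t) x) ≤
    Real.log (mm A W x) + (mm A (kickW z h W t) x / mm A W x - 1)
  have h2 := mm_pos hA (kickW_neg hW' hz' t) x
  have h3 := Real.log_le_sub_one_of_pos (div_pos h2 hm)
  rw [Real.log_div h2.ne' hm.ne'] at h3
  linarith

theorem KK_div_mm_le (hA : A.IsSymm) {η : ℝ} (hη : 0 < η) (hW : ∀ x, (W x).im ≤ -η) (x y : ι) :
    0 ≤ KK A W x y / mm A W x ∧ KK A W x y / mm A W x ≤ 1 / η := by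
  have hW' : ∀ x, (W x).im < 0 := fun x => (hW x).trans_lt (neg_lt_zero.2 hη)
  have hm := mm_pos hA hW' x
  refine ⟨div_nonneg (KK_nonneg _ _) hm.le, ?_⟩
  rw [div_le_div_iff₀ hm hη, one_mul]
  have h1 := e_mul_KK_le hA hW' x y
  have h2 : η * KK A W x y ≤ (-(W y).im) * KK A W x y :=
    mul_le_mul_of_nonneg_right (by linarith [hW y]) (KK_nonneg _ _)
  linarith

/-- **one-site estimate (b)** -/
theorem integral_KK_div_kick_ge (hA : A.IsSymm) {η : ℝ} (hη : 0 < η) (hW : ∀ x, (W x).im ≤ -η)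
    (hh : 0 < h) (hz : h + η ≤ -(W z).im) (x y : ι) :
    KK A W x y / mm A W x ≤
      ∫ t, KK A (kickW z h W t) x y / mm A (kickW z h W t) x ∂nu := by
  have hW' : ∀ x, (W x).im < 0 := fun x => (hW x).trans_lt (neg_lt_zero.2 hη)
  have hz' : h < -(W z).im := by linarith
  have hg := g_cond hA hW' hz'
  have hm := mm_pos hA hW' x
  have hk : ∀ t y, (kickW z h W t y).im ≤ -η := by
    intro t y
    unfold kickW
    by_cases hy : y = z
    · subst hy
      rw [Function.update_self, kickW_im]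
      linarith
    · rw [Function.update_of_ne hy]
      exact hW y
  obtain ⟨hi1, he1⟩ := integral_mm_kick hA hW' hh hz' x
  obtain ⟨c, hc⟩ : ∃ c : ℂ, c = Gr A W x y / (mm A W x : ℂ) := ⟨_, rfl⟩
  have hGi : Integrable (fun t => conj c * Gr A (kickW z h W t) x y) nu := by
    simp only [Gr_kick hA hW' hz']
    exact ((integrable_const _).sub (((integrable_tz hh hg).mul_const _).mul_const _)).const_mul _
  have hGe : ∫ t, conj c * Gr A (kickW z h W t) x y ∂nu = conj c * Gr A W x y := by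
    simp only [Gr_kick hA hW' hz']
    rw [integral_const_mul, integral_sub (integrable_const _)
      (((integrable_tz hh hg).mul_const _).mul_const _), integral_mul_const, integral_mul_const,
      integral_tz hh hg, integral_const, probReal_univ, one_smul]
    ring
  have hGre : ∫ t, (conj c * Gr A (kickW z h W t) x y).re ∂nu = (conj c * Gr A W x y).re := by
    rw [← hGe]
    exact integral_re hGi
  have hval : 2 * (conj c * Gr A W x y).re - ‖c‖ ^ 2 * mm A W x = KK A W x y / mm A W x := by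
    have h1 : conj c * Gr A W x y = ((KK A W x y / mm A W x : ℝ) : ℂ) := by
      have h2 : Gr A W x y * conj (Gr A W x y) = ((‖Gr A W x y‖ : ℝ) : ℂ) ^ 2 :=
        Complex.mul_conj' _
      have hm' : (mm A W x : ℂ) ≠ 0 := Complex.ofReal_ne_zero.2 hm.ne'
      rw [hc, map_div₀, Complex.conj_ofReal, KK]
      push_cast
      field_simp
      linear_combination h2
    rw [h1, Complex.ofReal_re, hc, norm_div, Complex.norm_real, Real.norm_of_nonneg hm.le, KK]
    field_simp
    ring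
  have hGi2 : Integrable (fun t => 2 * (conj c * Gr A (kickW z h W t) x y).re) nu :=
    hGi.re.const_mul 2
  have hmi2 : Integrable (fun t => ‖c‖ ^ 2 * mm A (kickW z h W t) x) nu := hi1.const_mul _
  have h1 : ∫ t, (2 * (conj c * Gr A (kickW z h W t) x y).re -
      ‖c‖ ^ 2 * mm A (kickW z h W t) x) ∂nu = KK A W x y / mm A W x := by
    rw [integral_sub hGi2 hmi2, integral_const_mul,
      integral_const_mul, hGre, he1, hval]
  rw [← h1]
  have hmeas : Measurable fun t => KK A (kickW z h W t) x y / mm A (kickW z h W t) x := by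
    refine Measurable.div ?_ (measurable_mm_kick hA hW' hz' x)
    unfold KK
    simp only [Gr_kick hA hW' hz']
    have := measurable_tz h (Gr A W z z)
    fun_prop
  refine integral_mono (hGi2.sub hmi2) ?_ fun t => ?_
  · refine Integrable.of_bound (C := 1 / η) hmeas.aestronglyMeasurable
      (Filter.Eventually.of_forall fun t => ?_)
    obtain ⟨h2, h3⟩ := KK_div_mm_le hA hη (hk t) x y
    rw [Real.norm_of_nonneg h2]
    exact h3
  · show 2 * (conj c * Gr A (kickW z h W t) x y).re - ‖c‖ ^ 2 * mm A (kickW z h W t) x ≤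
      KK A (kickW z h W t) x y / mm A (kickW z h W t) x
    have h2 := mm_pos hA (kickW_neg hW' hz' t) x
    rw [le_div_iff₀ h2, KK]
    obtain ⟨X, hX⟩ : ∃ X : ℂ, X = Gr A (kickW z h W t) x y := ⟨_, rfl⟩
    obtain ⟨m, hmd⟩ : ∃ m : ℝ, m = mm A (kickW z h W t) x := ⟨_, rfl⟩
    rw [← hX, ← hmd]
    have h3 : ‖X - (m : ℂ) * c‖ ^ 2 = ‖X‖ ^ 2 - 2 * m * (conj c * X).re + m ^ 2 * ‖c‖ ^ 2 := by
      rw [Complex.sq_norm, Complex.sq_norm, Complex.sq_norm, normSq_apply, normSq_apply,
        normSq_apply]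
      simp
      ring
    have h4 := sq_nonneg ‖X - (m : ℂ) * c‖
    rw [h3] at h4
    nlinarith

end kick

end P365L5
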