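import Vale.Agent.P365.L5.Final
import Vale.Agent.P365.Open.Thm

set_option linter.all false

/-!
# P365, LOC-5: truncated logarithm, annealed: the hypothesis `Op.LOC5w` of the OPEN theorem.
-/

namespace P365L5

open MeasureTheory ProbabilityTheory Complex P365L P365F P365L.Poi P365O
open scoped ENNReal NNReal Real ComplexConjugate

section pointwise
variable {ι : Type*} [Fintype ι] [DecidableEq ι] {A : Matrix ι ι ℝ}

theorem log_one_add_sq_le {t : ℝ} (ht : 0 ≤ t) :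
    Real.log (1 + t ^ 2) ≤ Real.log 2 + 2 * Real.posLog t := by
  have hl2 : 0 ≤ Real.log 2 := Real.log_nonneg one_le_two
  rcases le_total t 1 with h | h
  · have h1 : Real.log (1 + t ^ 2) ≤ Real.log 2 := by
      refine Real.log_le_log (by positivity) ?_
      nlinarith
    have h2 := Real.posLog_nonneg (x := t)
    linarith
  · have ht0 : 0 < t := by linarith
    have h1 : Real.log (1 + t ^ 2) ≤ Real.log (2 * t ^ 2) := by
      refine Real.log_le_log (by positivity) ?_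
      nlinarith
    rw [Real.log_mul two_ne_zero (by positivity), Real.log_pow] at h1
    have h2 : Real.log t ≤ Real.posLog t := le_max_right _ _
    push_cast at h1
    linarith

theorem Lm_le (hA : A.IsSymm) {W : ι → ℂ} {b : ℝ} (hb : 0 < b) (hW : ∀ x, (W x).im = -b) (x : ι) :
    Lm A b x W ≤ Real.log (mm A W x) + (Real.log 2 + 2 * Op.lgp A W x) := by
  have hneg : ∀ x, (W x).im < 0 := fun x => by rw [hW]; linarith
  have hm := mm_pos hA hneg x
  have hG : 0 < ‖Gr A W x x‖ := norm_pos_iff.2 (Gr_self_ne_zero hA hneg x)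
  have h1 := e_mul_KK_le hA hneg x x
  rw [hW, neg_neg] at h1
  unfold KK at h1
  unfold Lm Op.lgp
  refine le_trans ?_ (add_le_add le_rfl (log_one_add_sq_le (inv_nonneg.2 hG.le)))
  rw [← Real.log_mul hm.ne' (by positivity)]
  refine Real.log_le_log (by linarith) ?_
  have h2 : b ≤ mm A W x * (‖Gr A W x x‖⁻¹) ^ 2 := by
    rw [inv_pow, ← div_eq_mul_inv, le_div_iff₀ (by positivity)]
    exact h1
  linarith

theorem EEp_Lm_le (hA : A.IsSymm) {γ b : ℝ} (hγ : 0 < γ) (hb : 0 < b) (hbγ : b ≤ γ) (U : ι → ℝ)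
    (x : ι) {C0 : ℝ} (hC0 : 1 ≤ C0 * ‖Gr A (Op.W0 γ U) x x‖) :
    EEp γ (fun _ => b) U (Lm A b x) ≤
      EEp γ (fun _ => b) U (fun W => Real.log (mm A W x)) +
        (Real.log 2 + 2 * (4 * Real.log 2 * C0)) := by
  have h1 := Op.lgp_bound hA hγ U (e := fun _ => b) (fun _ => hb) (fun _ => hbγ) x hC0
  have i1 := (adm_Lm hA hb x).integrable (e := fun _ => b) (fun _ => hb) γ U
  have i2 : Integrable (fun c => Real.log (mm A (Wp γ (fun _ => b) U c) x)) (mu ι) :=
    integrable_log_mm hA hb (fun _ => le_rfl) x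
  have i3 := Op.integrable_lgp hA hγ U (e := fun _ => b) (fun _ => hb) (fun _ => hbγ) x
  have h2 : EEp γ (fun _ => b) U (Lm A b x) ≤ ∫ c, (Real.log (mm A (Wp γ (fun _ => b) U c) x) +
      (Real.log 2 + 2 * Op.lgp A (Wp γ (fun _ => b) U c) x)) ∂(mu ι) := by
    refine integral_mono i1 (i2.add ((integrable_const _).add (i3.const_mul 2))) fun c => ?_
    exact Lm_le hA hb (fun y => Wp_im _ _ _ _ _) x
  have h3 : ∫ c, (Real.log (mm A (Wp γ (fun _ => b) U c) x) +
      (Real.log 2 + 2 * Op.lgp A (Wp γ (fun _ => b) U c) x)) ∂(mu ι) =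
      EEp γ (fun _ => b) U (fun W => Real.log (mm A W x)) +
        (Real.log 2 + 2 * EEp γ (fun _ => b) U (fun W => Op.lgp A W x)) := by
    have h4 : Integrable (fun c => Real.log 2 + 2 * Op.lgp A (Wp γ (fun _ => b) U c) x) (mu ι) :=
      (integrable_const _).add (i3.const_mul 2)
    rw [integral_add i2 h4, integral_add (integrable_const _) (i3.const_mul 2),
      integral_const_mul]
    simp only [integral_const, probReal_univ, smul_eq_mul, one_mul]
    rfl
  rw [h3] at h2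
  linarith

end pointwise

/-- **LOC-5, quenched, truncated logarithm** -/
theorem loc5_quenched_trunc (hST : StaticThm) {γ B0 δ : ℝ} (hγ : 0 < γ) (hB0 : 0 ≤ B0)
    (hδ : 0 < δ) :
    ∃ C : ℝ, ∀ (N : ℕ) [NeZero N], 3 ≤ N → ∀ U : Tor N → ℝ, (∀ x, |U x| ≤ B0) →
      ∀ b : ℝ, 0 < b → b ≤ γ →
        ∑ x, EEp γ (fun _ => b) U (Lm (AT N) b x) ≤
          (-(1 - δ) * Real.log (1 / b) + C) * (N : ℝ) ^ 2 := by
  obtain ⟨C, hC⟩ := loc5_quenched hST hγ hB0 hδ
  obtain ⟨C0, hC0⟩ : ∃ C0 : ℝ, C0 = 2 * (4 + (B0 ^ 2 + γ ^ 2)) / γ := ⟨_, rfl⟩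
  refine ⟨C + (Real.log 2 + 2 * (4 * Real.log 2 * C0)), ?_⟩
  intro N _ hN3 U hU b hb hbγ
  have hN := N_sq_pos (N := N)
  have h1 := hC N hN3 U hU b hb hbγ
  rw [div_le_iff₀ hN] at h1
  have h2 : ∀ x, EEp γ (fun _ => b) U (Lm (AT N) b x) ≤
      EEp γ (fun _ => b) U (fun W => Real.log (mm (AT N) W x)) +
        (Real.log 2 + 2 * (4 * Real.log 2 * C0)) := by
    intro x
    refine EEp_Lm_le (AT_symm N) hγ hb hbγ U x ?_
    rw [hC0]
    refine (Op.Gr_self_lower (AT_symm N) hγ (fun y => (Op.W0_im γ U y).le) x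
      (row_sq_le x)).trans ?_
    refine mul_le_mul_of_nonneg_right ?_ (norm_nonneg _)
    refine div_le_div_of_nonneg_right ?_ hγ.le
    refine mul_le_mul_of_nonneg_left (add_le_add le_rfl ?_) two_pos.le
    rw [Complex.sq_norm, normSq_apply, Op.W0_im]
    have h3 : (Op.W0 γ U x).re = U x := by unfold Op.W0; simp
    rw [h3]
    have h4 : U x ^ 2 ≤ B0 ^ 2 := by
      rw [← sq_abs (U x)]
      exact pow_le_pow_left₀ (abs_nonneg _) (hU x) 2
    nlinarith
  refine (Finset.sum_le_sum fun x _ => h2 x).trans ?_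
  rw [Finset.sum_add_distrib, Finset.sum_const, Finset.card_univ, nsmul_eq_mul, card_Tor]
  unfold FL at h1
  linarith

/-- **LOC-5, annealed, truncated logarithm** -/
theorem loc5_annealed (hST : StaticThm) {γ B0 δ : ℝ} (hγ : 0 < γ) (hB0 : 0 ≤ B0)
    (hδ : 0 < δ) :
    ∃ C : ℝ, ∀ (ρ : Measure ℝ) [IsProbabilityMeasure ρ], ρ (Set.Icc (-B0) B0)ᶜ = 0 →
      ∀ (N : ℕ) [NeZero N], 3 ≤ N → ∀ b : ℝ, 0 < b → b ≤ γ →
        EU ρ γ (fun _ : Tor N => b) (Lm (AT N) b 0) ≤ -(1 - δ) * Real.log (1 / b) + C := by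
  obtain ⟨C, hC⟩ := loc5_quenched_trunc hST hγ hB0 hδ
  refine ⟨C, ?_⟩
  intro ρ _ hρ N _ hN3 b hb hbγ
  refine EU_le_of_sum ρ hρ (F := fun x => Lm (AT N) b x) ?_
    (fun x => adm_Lm (AT_symm N) hb x) hb γ (fun U hU => ?_)
  · intro a x W
    show Real.log (b + mm (AT N) (sh a W) x) = Real.log (b + mm (AT N) W (x + a))
    rw [mm_sh (TI_AT N)]
  · have h := hC N hN3 U hU b hb hbγ
    rw [card_Tor]
    exact h

/-- the hypothesis of the OPEN theorem -/
theorem LOC5w_of_static (hST : StaticThm) {γ B : ℝ} (hγ : 0 < γ) (ρ : Measure ℝ)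
    [IsProbabilityMeasure ρ] (hB : ρ (Set.Icc (-B) B)ᶜ = 0) : Op.LOC5w γ ρ := by
  intro δ hδ
  have hB' : ρ (Set.Icc (-|B|) |B|)ᶜ = 0 := by
    refine measure_mono_null ?_ hB
    intro t ht h
    exact ht ⟨by linarith [h.1, neg_abs_le B, le_abs_self B], by linarith [h.2, le_abs_self B]⟩
  obtain ⟨C, hC⟩ := loc5_annealed hST hγ (abs_nonneg B) hδ
  refine ⟨C, fun b hb hbγ _ M => ?_⟩
  exact ⟨M + 3, ⟨by omega⟩, by omega, by
    haveI : NeZero (M + 3) := ⟨by omega⟩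
    exact hC ρ hB' (M + 3) (by omega) b hb (by linarith)⟩

/-- the OPEN theorem from the static theorem -/
theorem openEU_of_static (hST : StaticThm) {γ B : ℝ} (hγ : 0 < γ) (ρ : Measure ℝ)
    [IsProbabilityMeasure ρ] (hB : ρ (Set.Icc (-B) B)ᶜ = 0) : Op.OpenEU γ ρ :=
  Op.openEU hγ ρ hB (LOC5w_of_static hST hγ ρ hB)

end P365L5
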